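import Vale.Agent.P147.Mono

open Set Filter Topology

namespace Vale.Agent.P147

variable {d : ℕ}

/-- The transverse box around the axis `i`. -/
def InBox (i : Fin d) (S : ℕ) (x : Site d) : Prop := ∀ j, j ≠ i → |x j| ≤ (S : ℤ)

/-- The probability to stay in the transverse box for `K` steps, as a recursion. -/
noncomputable def stay (ω : Env d) (i : Fin d) (S : ℕ) : ℕ → Site d → ℝ
  | 0 => Set.indicator {x | InBox i S x} fun _ => 1
  | K + 1 => Set.indicator {x | InBox i S x} fun x => avg ω (stay ω i S K) x

lemma stay_range (ω : Env d) (i : Fin d) (S : ℕ) :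
    ∀ K x, 0 ≤ stay ω i S K x ∧ stay ω i S K x ≤ 1 := by
  intro K
  induction K with
  | zero => intro x; by_cases h : InBox i S x <;> simp [stay, h]
  | succ K ih =>
      intro x
      by_cases h : InBox i S x
      · simpa [stay, h] using
          And.intro (avg_nonneg ω x fun y => (ih y).1) (avg_le_one ω x fun y => (ih y).2)
      · simp [stay, h]

lemma stay_antitone (ω : Env d) (i : Fin d) (S : ℕ) (x : Site d) :
    Antitone fun K => stay ω i S K x := by
  have : ∀ K x, stay ω i S (K + 1) x ≤ stay ω i S K x := by
    intro K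
    induction K with
    | zero =>
        intro x
        by_cases h : InBox i S x
        · simpa [stay, h] using avg_le_one ω x fun y => (stay_range ω i S 0 y).2
        · simp [stay, h]
    | succ K ih =>
        intro x
        by_cases h : InBox i S x
        · rw [stay, stay, indicator_of_mem (show x ∈ {x | InBox i S x} from h),
            indicator_of_mem (show x ∈ {x | InBox i S x} from h)]
          exact avg_mono ω fun a => ih _
        · simp [stay, h]
  exact antitone_nat_of_succ_le fun K => this K x

lemma inBox_add_axis {i : Fin d} {S : ℕ} {x : Site d} (b : Bool) :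
    InBox i S (x + vec (i, b)) ↔ InBox i S x := by
  simp +contextual [InBox, vec]

lemma vec_self (i : Fin d) (b : Bool) : vec (i, b) i = if b then 1 else -1 := by simp [vec]

lemma abs_vec_le (a : Step d) (j : Fin d) : |vec a j| ≤ 1 := by
  rcases a with ⟨k, c⟩
  rcases eq_or_ne j k with rfl | h
  · cases c <;> simp [vec]
  · simp [vec, h]

lemma finite_slab (i : Fin d) (S : ℕ) (lo hi : ℤ) :
    {x : Site d | InBox i S x ∧ lo ≤ x i ∧ x i ≤ hi}.Finite := by
  refine (Set.finite_Icc (fun _ => min (-(S : ℤ)) lo) (fun _ => max (S : ℤ) hi)).subset ?_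
  rintro x ⟨hx, h1, h2⟩
  constructor <;> intro j <;> by_cases h : j = i
  · subst h; exact (min_le_right _ _).trans h1
  · exact (min_le_left _ _).trans (abs_le.1 (hx j h)).1
  · subst h; exact h2.trans (le_max_right _ _)
  · exact (abs_le.1 (hx j h)).2.trans (le_max_left _ _)

/-- The row `g` gives the step `a` at least the probability `η` throughout the box. -/
def GoodRow (ω : Env d) (i : Fin d) (S : ℕ) (a : Step d) (η : ℝ) (g : ℤ) : Prop :=
  ∀ x, InBox i S x → x i = g → η ≤ (ω x).1 a

/-- The walk leaves every transverse box, provided that good rows occur arbitrarily far in both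
directions. -/
lemma tendsto_stay {ω : Env d} {i : Fin d} {S : ℕ} {a : Step d} (ha : a.1 ≠ i)
    (hpos : ∀ x, 0 < (ω x).1 a) {η : ℝ} (hη : 0 < η)
    (hgood : ∀ m : ℤ, (∃ g, m ≤ g ∧ GoodRow ω i S a η g) ∧ ∃ g, g ≤ m ∧ GoodRow ω i S a η g) :
    ∀ x, Tendsto (fun K => stay ω i S K x) atTop (𝓝 0) := by
  classical
  obtain ⟨j, c⟩ := a
  simp only at ha
  set a : Step d := (j, c) with a_def
  set u : Site d → ℝ := fun x => ⨅ K, stay ω i S K x with u_def
  have tend : ∀ x, Tendsto (fun K => stay ω i S K x) atTop (𝓝 (u x)) := fun x =>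
    tendsto_atTop_ciInf (stay_antitone ω i S x) ⟨0, by rintro _ ⟨K, rfl⟩; exact (stay_range ω i S K x).1⟩
  have u0 : ∀ x, 0 ≤ u x := fun x => ge_of_tendsto' (tend x) fun K => (stay_range ω i S K x).1
  have u1 : ∀ x, u x ≤ 1 := fun x => le_of_tendsto' (tend x) fun K => (stay_range ω i S K x).2
  have uout : ∀ x, ¬ InBox i S x → u x = 0 := by
    intro x hx
    refine tendsto_nhds_unique (tend x) ?_
    have : (fun K => stay ω i S K x) = fun _ => 0 := by
      funext K; cases K <;> simp [stay, hx]
    rw [this]; exact tendsto_const_nhds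
  have uin : ∀ x, InBox i S x → u x = avg ω u x := by
    intro x hx
    refine tendsto_nhds_unique ((tend x).comp (tendsto_add_atTop_nat 1)) ?_
    have : ((fun K => stay ω i S K x) ∘ fun K => K + 1) = fun K => avg ω (stay ω i S K) x := by
      funext K; simp [stay, hx]
    rw [this]
    exact tendsto_finsetSum _ fun b _ => (tend _).const_mul _
  set M : ℝ := ⨆ x, u x with M_def
  have bdd : BddAbove (Set.range u) := ⟨1, by rintro _ ⟨x, rfl⟩; exact u1 x⟩
  have leM : ∀ x, u x ≤ M := le_ciSup bdd
  have M0 : 0 ≤ M := (u0 0).trans (leM 0)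
  set sg : ℤ := if c then 1 else -1 with sg_def
  have hj : ∀ x : Site d, sg * (x + vec a) j = sg * x j + 1 := by
    intro x; cases c <;> simp [a_def, sg_def, vec] <;> ring
  have hi : ∀ x : Site d, (x + vec a) i = x i := by
    intro x; simp [a_def, vec, Ne.symm ha]
  have hbox : ∀ x, InBox i S x → -(S : ℤ) ≤ sg * x j ∧ sg * x j ≤ S := by
    intro x hx
    have := abs_le.1 (hx j ha)
    cases c <;> simp [sg_def] <;> omega
  set η' := min η 1 with η'_def
  have hη' : 0 < η' := lt_min hη one_pos
  have hη'1 : η' ≤ 1 := min_le_right _ _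
  set δ := η' ^ (2 * S + 1) with δ_def
  have hδ : 0 < δ := pow_pos hη' _
  have rowbound : ∀ g, GoodRow ω i S a η g → ∀ x, x i = g → u x ≤ (1 - δ) * M := by
    intro g hg
    have : ∀ k : ℕ, ∀ x, x i = g → (S : ℤ) + 1 ≤ sg * x j + k → u x ≤ (1 - η' ^ k) * M := by
      intro k
      induction k with
      | zero =>
          intro x _ hk
          rw [uout x fun h => by have := (hbox x h).2; simp at hk; omega]
          simp
      | succ k ih =>
          intro x hxg hk
          by_cases hx : InBox i S x
          · rw [uin x hx, avg, ← Finset.add_sum_erase _ _ (Finset.mem_univ a)]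
            have e1 : u (x + vec a) ≤ (1 - η' ^ k) * M := by
              refine ih _ (by rw [hi]; exact hxg) ?_
              rw [hj]; push_cast at hk ⊢; linarith
            have e2 : ∑ b ∈ Finset.univ.erase a, (ω x).1 b * u (x + vec b)
                ≤ (1 - (ω x).1 a) * M := by
              have : ∑ b ∈ Finset.univ.erase a, (ω x).1 b = 1 - (ω x).1 a := by
                rw [Finset.sum_erase_eq_sub (Finset.mem_univ a), (ω x).2.2]
              rw [← this, Finset.sum_mul]
              exact Finset.sum_le_sum fun b _ => mul_le_mul_of_nonneg_left (leM _) ((ω x).2.1 b)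
            have e3 : η' ≤ (ω x).1 a := (min_le_left _ _).trans (hg x hx hxg)
            have e4 := (ω x).2.1 a
            have e5 : 0 ≤ η' ^ k := pow_nonneg hη'.le _
            have e6 := mul_le_mul_of_nonneg_left e1 e4
            have e7 : 0 ≤ ((ω x).1 a - η') * (η' ^ k * M) :=
              mul_nonneg (by linarith) (mul_nonneg e5 M0)
            rw [pow_succ]
            nlinarith
          · rw [uout x hx]
            exact mul_nonneg (by linarith [pow_le_one₀ hη'.le hη'1 (n := k + 1)]) M0
    intro x hxg
    by_cases hx : InBox i S x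
    · refine this (2 * S + 1) x hxg ?_
      have := (hbox x hx).1
      push_cast
      linarith
    · rw [uout x hx]
      exact mul_nonneg (by linarith [pow_le_one₀ hη'.le hη'1 (n := 2 * S + 1)]) M0
  have all : ∀ x, u x ≤ (1 - δ) * M := by
    intro x
    have T0 : 0 ≤ (1 - δ) * M :=
      mul_nonneg (by linarith [pow_le_one₀ hη'.le hη'1 (n := 2 * S + 1)]) M0
    by_cases hx : InBox i S x
    swap
    · rw [uout x hx]; exact T0
    obtain ⟨⟨g2, hg2, G2⟩, g1, hg1, G1⟩ := hgood (x i)
    set Z := (finite_slab i S g1 g2).toFinset with Z_def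
    have memZ : ∀ y, y ∈ Z ↔ InBox i S y ∧ g1 ≤ y i ∧ y i ≤ g2 := fun y => by simp [Z_def]
    have xZ : x ∈ Z := (memZ x).2 ⟨hx, hg1, hg2⟩
    obtain ⟨z, zZ, zmax⟩ := Z.exists_max_image u ⟨x, xZ⟩
    refine (zmax x xZ).trans (le_of_not_gt fun hgt => ?_)
    obtain ⟨y, yF, ymax⟩ := (Z.filter fun y => u y = u z).exists_max_image (fun y => sg * y j)
      ⟨z, by simp [zZ]⟩
    obtain ⟨yZ, yz⟩ := Finset.mem_filter.1 yF
    obtain ⟨ybox, y1, y2⟩ := (memZ y).1 yZ
    have y1' : g1 < y i := lt_of_le_of_ne y1 fun h => by
      linarith [rowbound g1 G1 y h.symm, yz]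
    have y2' : y i < g2 := lt_of_le_of_ne y2 fun h => by
      linarith [rowbound g2 G2 y h, yz]
    have nb : ∀ b, u (y + vec b) ≤ u z := by
      intro b
      by_cases hb : InBox i S (y + vec b)
      · refine zmax _ ((memZ _).2 ⟨hb, ?_⟩)
        have := abs_le.1 (abs_vec_le b i)
        constructor <;> simp only [Pi.add_apply] <;> omega
      · rw [uout _ hb]; linarith
    have eq : u (y + vec a) = u z := by
      by_contra hne
      have hlt := lt_of_le_of_ne (nb a) hne
      have : avg ω u y < ∑ b, (ω y).1 b * u z :=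
        Finset.sum_lt_sum (fun b _ => mul_le_mul_of_nonneg_left (nb b) ((ω y).2.1 b))
          ⟨a, Finset.mem_univ a, mul_lt_mul_of_pos_left hlt (hpos y)⟩
      rw [← Finset.sum_mul, (ω y).2.2, one_mul, ← uin y ybox, yz] at this
      exact lt_irrefl _ this
    have inb : InBox i S (y + vec a) := by
      by_contra hb
      rw [uout _ hb] at eq
      linarith
    have := ymax (y + vec a) (Finset.mem_filter.2
      ⟨(memZ _).2 ⟨inb, by rw [hi]; exact ⟨y1, y2⟩⟩, eq⟩)
    rw [hj] at this
    linarith
  have Mle : M ≤ (1 - δ) * M := ciSup_le all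
  have Mzero : M = 0 := by nlinarith
  intro x
  have : u x = 0 := le_antisymm (Mzero ▸ leM x) (u0 x)
  simpa [this] using tend x

/-- A function harmonic in a box, with monotone boundary values, is monotone along the axis, as
soon as the box is left almost surely. -/
lemma monotone_of_harmonic {ω : Env d} {i : Fin d} {w : Step d → ℝ} {S : ℕ} (b : Bool)
    (hω : ∀ x, FixedTransverse i w (ω x)) (H : Site d → Prop)
    (hH : ∀ x, H x → H (x + vec (i, b))) (Φ : Site d → ℝ)
    (hΦ0 : ∀ x, 0 ≤ Φ x) (hΦ1 : ∀ x, Φ x ≤ 1)
    (harm : ∀ x, InBox i S x → H x → avg ω Φ x = Φ x)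
    (hkill : ∀ x, InBox i S x → ¬ H x → Φ x = 0)
    (hbd : ∀ x, ¬ InBox i S x → Φ x ≤ Φ (x + vec (i, b)))
    (hexit : ∀ x, Tendsto (fun K => stay ω i S K x) atTop (𝓝 0)) :
    ∀ x, Φ x ≤ Φ (x + vec (i, b)) := by
  classical
  intro x
  set e := vec (i, b) with he
  set nb : Site d → ℤ := fun y => if b then y i else -y i with nb_def
  have nbe : ∀ y, nb (y + e) = nb y + 1 := by
    intro y; cases b <;> simp [nb_def, he, vec] <;> ring
  have nbabs : ∀ y, |nb y| = |y i| := by intro y; cases b <;> simp [nb_def]
  have nbrange : ∀ (N : ℤ) y, |y i| ≤ N ↔ -N ≤ nb y ∧ nb y ≤ N := by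
    intro N y; rw [← nbabs, abs_le]
  have bound : ∀ K : ℕ, Φ x - Φ (x + e) ≤ stay ω i S K x + stay ω i S K (x + e) := by
    intro K
    set N : ℤ := |x i| + K + 1 with N_def
    set B : Finset (Site d) :=
      ((finite_slab i S (-N) N).toFinset).filter fun y => H y with B_def
    have memB : ∀ y, y ∈ B ↔ InBox i S y ∧ (-N ≤ nb y ∧ nb y ≤ N) ∧ H y := by
      intro y; rw [← nbrange, abs_le]; simp [B_def, and_assoc]
    set f : Site d → ℝ := fun y =>
      if InBox i S y then (if H y ∧ N < nb y then 1 else 0) else Φ y with f_def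
    obtain ⟨V, V01, Vout, Vharm, Vmono⟩ := exists_mono_solution (w := w) b B hω f
      (by intro y; simp only [f_def]; split_ifs <;> first | exact hΦ0 y | norm_num)
      (by intro y; simp only [f_def]; split_ifs <;> first | exact hΦ1 y | norm_num)
      (by
        intro y hy hy'
        obtain ⟨h1, ⟨h2, h3⟩, h4⟩ := (memB y).1 hy
        rw [← he] at hy' ⊢
        have b1 : InBox i S (y + e) := (inBox_add_axis b).2 h1
        have b2 : H (y + e) := hH y h4
        have b3 : N < nb (y + e) := by
          by_contra hlt
          exact hy' ((memB _).2 ⟨b1, ⟨by rw [nbe]; omega, not_lt.1 hlt⟩, b2⟩)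
        simp [f_def, b1, b2, b3])
      (by
        intro y hy hy'
        rw [← he] at hy'
        obtain ⟨h1, ⟨h2, h3⟩, h4⟩ := (memB _).1 hy'
        have b1 : InBox i S y := (inBox_add_axis b).1 h1
        have b2 : ¬ (H y ∧ N < nb y) := by
          rintro ⟨-, h⟩; rw [nbe] at h3; omega
        simp [f_def, b1, b2])
      (by
        intro y hy hy'
        rw [← he]
        by_cases h1 : InBox i S y
        · have h1' : InBox i S (y + e) := (inBox_add_axis b).2 h1
          by_cases h2 : H y ∧ N < nb y
          · have : H (y + e) ∧ N < nb (y + e) := ⟨hH y h2.1, by rw [nbe]; omega⟩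
            simp [f_def, h1, h1', h2, this]
          · simp only [f_def, h1, h1', h2, if_true, if_false]
            split_ifs <;> norm_num
        · have h1' : ¬ InBox i S (y + e) := fun h => h1 ((inBox_add_axis b).1 h)
          simp only [f_def, h1, h1', if_false]
          exact hbd y h1)
    have est : ∀ k : ℕ, ∀ y, |y i| + k ≤ N → |Φ y - V y| ≤ stay ω i S k y := by
      intro k
      induction k with
      | zero =>
          intro y _
          by_cases h1 : InBox i S y
          · simp only [stay, indicator_of_mem (show y ∈ {x | InBox i S x} from h1)]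
            rw [abs_le]; constructor <;> linarith [hΦ0 y, hΦ1 y, (V01 y).1, (V01 y).2]
          · rw [Vout y fun h => h1 ((memB y).1 h).1]
            simp [f_def, h1, (stay_range ω i S 0 y).1]
      | succ k ih =>
          intro y hy
          by_cases h1 : InBox i S y
          swap
          · rw [Vout y fun h => h1 ((memB y).1 h).1]
            simp [f_def, h1, (stay_range ω i S (k + 1) y).1]
          push_cast at hy
          by_cases h2 : H y
          · have hyB : y ∈ B := (memB y).2 ⟨h1, (nbrange N y).1 (by omega), h2⟩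
            rw [← harm y h1 h2, ← Vharm y hyB, avg_sub]
            simp only [stay, indicator_of_mem (show y ∈ {x | InBox i S x} from h1), avg]
            refine (Finset.abs_sum_le_sum_abs _ _).trans (Finset.sum_le_sum fun a _ => ?_)
            rw [abs_mul, abs_of_nonneg ((ω y).2.1 a)]
            refine mul_le_mul_of_nonneg_left (ih _ ?_) ((ω y).2.1 a)
            have := abs_vec_le a i
            have := abs_add_le (y i) (vec a i)
            simp only [Pi.add_apply]
            omega
          · rw [Vout y fun h => h2 ((memB y).1 h).2.2, hkill y h1 h2]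
            simp [f_def, h1, h2, (stay_range ω i S (k + 1) y).1]
    have a1 := abs_le.1 (est K x (by omega))
    have a2 := abs_le.1 (est K (x + e) (by
      have := abs_vec_le (i, b) i
      have := abs_add_le (x i) (vec (i, b) i)
      simp only [Pi.add_apply, he]
      omega))
    have := Vmono x
    rw [← he] at this
    linarith [a1.2, a2.1]
  have lim : Tendsto (fun K => stay ω i S K x + stay ω i S K (x + e)) atTop (𝓝 0) := by
    simpa using (hexit x).add (hexit (x + e))
  linarith [ge_of_tendsto' lim bound]

end Vale.Agent.P147
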