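import Vale.Agent.P147.Markov
import Vale.Agent.P147.Exit

open MeasureTheory Set Filter Topology

namespace Vale.Agent.P147

variable {d : ℕ} {Q : Env d → Site d → Measure (ℕ → Site d)} {ω : Env d} {i : Fin d}

/-- Projection on a direction. -/
def proj (l : Fin d → ℝ) (x : Site d) : ℝ := ∑ j, l j * (x j : ℝ)

lemma proj_add (l : Fin d → ℝ) (x y : Site d) : proj l (x + y) = proj l x + proj l y := by
  simp [proj, mul_add, Finset.sum_add_distrib]

lemma proj_vec (l : Fin d → ℝ) (a : Step d) :
    proj l (vec a) = l a.1 * (if a.2 then 1 else -1) := by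
  simp only [proj, vec]
  rw [Finset.sum_eq_single a.1 (fun j _ hj => by simp [hj]) (by simp)]
  split_ifs <;> simp

lemma measurableSet_at (k : ℕ) (P : Site d → Prop) :
    MeasurableSet {X : ℕ → Site d | P (X k)} :=
  ((Set.to_countable {x | P x}).measurableSet).preimage (measurable_pi_apply k)

/-- The paths staying in the box up to time `K`. -/
def stayEv (i : Fin d) (S K : ℕ) : Set (ℕ → Site d) := {X | ∀ k ≤ K, InBox i S (X k)}

lemma measurableSet_stayEv (i : Fin d) (S K : ℕ) : MeasurableSet (stayEv (d := d) i S K) := by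
  simp only [stayEv, setOf_forall]
  exact MeasurableSet.iInter fun k => MeasurableSet.iInter fun _ => measurableSet_at k _

/-- The probability of staying in the box is given by the recursion `stay`. -/
lemma IsQuenchedLaw.stay_eq (hQ : IsQuenchedLaw Q) (ω : Env d) (i : Fin d) (S : ℕ) :
    ∀ K x, (Q ω x).real (stayEv i S K) = stay ω i S K x := by
  intro K
  induction K with
  | zero =>
      intro x
      haveI := hQ.prob ω x
      by_cases h : InBox i S x
      · have : stayEv i S 0 =ᵐ[Q ω x] (univ : Set (ℕ → Site d)) := by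
          refine Filter.eventuallyEq_set.2 ?_
          filter_upwards [hQ.ae_start ω x] with X hX
          simp [stayEv, hX, h]
        simp [measureReal_congr this, stay, h]
      · have : stayEv i S 0 =ᵐ[Q ω x] (∅ : Set (ℕ → Site d)) := by
          refine Filter.eventuallyEq_set.2 ?_
          filter_upwards [hQ.ae_start ω x] with X hX
          simp [stayEv, hX, h]
        simp [measureReal_congr this, stay, h]
  | succ K ih =>
      intro x
      rw [hQ.real_step ω x (measurableSet_stayEv i S (K + 1))]
      by_cases h : InBox i S x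
      · have e : pcons x ⁻¹' stayEv i S (K + 1) = stayEv i S K := by
          ext X
          simp only [stayEv, mem_preimage, mem_setOf_eq]
          refine ⟨fun hX k hk => hX (k + 1) (by omega), fun hX k hk => ?_⟩
          cases k with
          | zero => exact h
          | succ k => exact hX k (by omega)
        simp [e, ih, stay, h, avg]
      · have e : pcons x ⁻¹' stayEv i S (K + 1) = ∅ :=
          Set.eq_empty_of_forall_notMem fun X hX => h (hX 0 (by omega))
        simp [e, stay, h]

/-- The exit hypothesis: every transverse box is left almost surely. -/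
def Exits (ω : Env d) (i : Fin d) : Prop :=
  ∀ S x, Tendsto (fun K => stay ω i S K x) atTop (𝓝 0)

lemma IsQuenchedLaw.never_exit (hQ : IsQuenchedLaw Q) (hex : Exits ω i) (S : ℕ) (x : Site d) :
    (Q ω x).real {X | ∀ k, InBox i S (X k)} = 0 := by
  haveI := hQ.prob ω x
  refine le_antisymm (ge_of_tendsto' (hex S x) fun K => ?_) measureReal_nonneg
  rw [← hQ.stay_eq ω i S K x]
  exact measureReal_mono fun X hX k _ => hX k

lemma tendsto_real_iInter (hQ : IsQuenchedLaw Q) (x : Site d) {E : ℕ → Set (ℕ → Site d)}
    (hm : ∀ n, MeasurableSet (E n)) (ha : Antitone E) :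
    Tendsto (fun n => (Q ω x).real (E n)) atTop (𝓝 ((Q ω x).real (⋂ n, E n))) := by
  haveI := hQ.prob ω x
  exact (ENNReal.tendsto_toReal (measure_ne_top _ _)).comp
    (tendsto_measure_iInter_atTop (fun n => (hm n).nullMeasurableSet) ha ⟨0, measure_ne_top _ _⟩)

lemma tendsto_real_iUnion (hQ : IsQuenchedLaw Q) (x : Site d) {E : ℕ → Set (ℕ → Site d)}
    (ha : Monotone E) :
    Tendsto (fun n => (Q ω x).real (E n)) atTop (𝓝 ((Q ω x).real (⋃ n, E n))) := by
  haveI := hQ.prob ω x
  exact (ENNReal.tendsto_toReal (measure_ne_top _ _)).comp (tendsto_measure_iUnion_atTop ha)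

lemma inBox_mono {S T : ℕ} (h : S ≤ T) {x : Site d} (hx : InBox i S x) : InBox i T x :=
  fun j hj => (hx j hj).trans (by exact_mod_cast h)

lemma exists_box (k : ℕ) (X : ℕ → Site d) : ∃ S : ℕ, ∀ m ≤ k, InBox i S (X m) := by
  refine ⟨(Finset.range (k + 1)).sup fun m => Finset.univ.sup fun j => (X m j).natAbs,
    fun m hm j _ => ?_⟩
  have h1 : (X m j).natAbs ≤ (Finset.range (k + 1)).sup
      fun m => Finset.univ.sup fun j => (X m j).natAbs :=
    le_trans (Finset.le_sup (f := fun j => (X m j).natAbs) (Finset.mem_univ j))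
      (Finset.le_sup (f := fun m => Finset.univ.sup fun j => (X m j).natAbs)
        (Finset.mem_range.2 (Nat.lt_succ_of_le hm)))
  rw [Int.abs_eq_natAbs]
  exact_mod_cast h1

variable {w : Step d → ℝ}

/-- The probability of staying forever in an upper set is monotone along the axis. -/
lemma IsQuenchedLaw.forever_mono (hQ : IsQuenchedLaw Q) (hω : ∀ x, FixedTransverse i w (ω x))
    (hex : Exits ω i) (b : Bool) (H : Site d → Prop) (hH : ∀ x, H x → H (x + vec (i, b))) :
    ∀ x, (Q ω x).real {X | ∀ j, H (X j)} ≤ (Q ω (x + vec (i, b))).real {X | ∀ j, H (X j)} := by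
  classical
  set E : ℕ → Set (ℕ → Site d) := fun S => {X | ∀ j, (∀ k < j, InBox i S (X k)) → H (X j)}
    with E_def
  have hm : ∀ S, MeasurableSet (E S) := by
    intro S
    simp only [E_def, setOf_forall]
    refine MeasurableSet.iInter fun j => ?_
    have : {X : ℕ → Site d | (∀ k < j, InBox i S (X k)) → H (X j)}
        = {X | ∀ k < j, InBox i S (X k)}ᶜ ∪ {X | H (X j)} := by
      ext X; simp [imp_iff_not_or]
    rw [this]
    refine (MeasurableSet.compl ?_).union (measurableSet_at j H)
    simp only [setOf_forall]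
    exact MeasurableSet.iInter fun k => MeasurableSet.iInter fun _ => measurableSet_at k _
  have ha : Antitone E := fun S T hST X hX j hj => hX j fun k hk => inBox_mono hST (hj k hk)
  have hInter : ⋂ S, E S = {X | ∀ j, H (X j)} := by
    ext X
    simp only [mem_iInter, mem_setOf_eq, E_def]
    refine ⟨fun h j => ?_, fun h S j _ => h j⟩
    obtain ⟨S, hS⟩ := exists_box (i := i) j X
    exact h S j fun k hk => hS k hk.le
  intro x
  rw [← hInter]
  refine le_of_tendsto_of_tendsto' (tendsto_real_iInter hQ _ hm ha)
    (tendsto_real_iInter hQ _ hm ha) fun S => ?_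
  have start : ∀ y, ¬ H y → (Q ω y).real (E S) = 0 := by
    intro y hy
    haveI := hQ.prob ω y
    have : E S =ᵐ[Q ω y] (∅ : Set (ℕ → Site d)) := by
      refine Filter.eventuallyEq_set.2 ?_
      filter_upwards [hQ.ae_start ω y] with X hX
      simp only [mem_empty_iff_false, iff_false]
      intro h
      exact hy (hX ▸ h 0 (by simp))
    simp [measureReal_congr this]
  have out : ∀ y, ¬ InBox i S y → (Q ω y).real (E S) = if H y then 1 else 0 := by
    intro y hy
    split_ifs with hH'
    · haveI := hQ.prob ω y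
      have : E S =ᵐ[Q ω y] (univ : Set (ℕ → Site d)) := by
        refine Filter.eventuallyEq_set.2 ?_
        filter_upwards [hQ.ae_start ω y] with X hX
        simp only [mem_univ, iff_true]
        intro j hj
        cases j with
        | zero => rw [hX]; exact hH'
        | succ j => exact absurd (hX ▸ hj 0 (by omega)) hy
      simp [measureReal_congr this]
    · exact start y hH'
  refine monotone_of_harmonic (w := w) b hω H hH (fun y => (Q ω y).real (E S))
    (fun y => (hQ.real_nonneg_le_one ω y _).1) (fun y => (hQ.real_nonneg_le_one ω y _).2)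
    ?_ (fun y _ hy => start y hy) ?_ (hex S) x
  · intro y hy hHy
    have e : pcons y ⁻¹' E S = E S := by
      ext X
      simp only [mem_preimage, E_def, mem_setOf_eq]
      refine ⟨fun h j hj => h (j + 1) fun k hk => ?_, fun h j hj => ?_⟩
      · cases k with
        | zero => exact hy
        | succ k => exact hj k (by omega)
      · cases j with
        | zero => exact hHy
        | succ j => exact h j fun k hk => hj (k + 1) (by omega)
    rw [hQ.real_step ω y (hm S), e, avg]
  · intro y hy
    show (Q ω y).real (E S) ≤ (Q ω (y + vec (i, b))).real (E S)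
    rw [out y hy, out _ fun h => hy ((inBox_add_axis b).1 h)]
    by_cases h1 : H y
    · simp [h1, hH y h1]
    · rw [if_neg h1]; split_ifs <;> norm_num

/-- The probability of being eventually in an upper set is monotone along the axis. -/
lemma IsQuenchedLaw.eventually_mono (hQ : IsQuenchedLaw Q) (hω : ∀ x, FixedTransverse i w (ω x))
    (hex : Exits ω i) (b : Bool) (H : Site d → Prop) (hH : ∀ x, H x → H (x + vec (i, b))) :
    ∀ x, (Q ω x).real {X | ∃ k, ∀ j ≥ k, H (X j)}
      ≤ (Q ω (x + vec (i, b))).real {X | ∃ k, ∀ j ≥ k, H (X j)} := by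
  classical
  set F : ℕ → Set (ℕ → Site d) := fun S => {X | ∀ j, (∃ k ≤ j, ¬ InBox i S (X k)) → H (X j)}
    with F_def
  have hm : ∀ S, MeasurableSet (F S) := by
    intro S
    simp only [F_def, setOf_forall]
    refine MeasurableSet.iInter fun j => ?_
    have : {X : ℕ → Site d | (∃ k ≤ j, ¬ InBox i S (X k)) → H (X j)}
        = stayEv i S j ∪ {X | H (X j)} := by
      ext X; simp [imp_iff_not_or, stayEv]
    rw [this]
    exact (measurableSet_stayEv i S j).union (measurableSet_at j H)
  have ha : Monotone F := fun S T hST X hX j ⟨k, hk, hk'⟩ =>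
    hX j ⟨k, hk, fun h => hk' (inBox_mono hST h)⟩
  have lim : ∀ y, Tendsto (fun S => (Q ω y).real (F S)) atTop
      (𝓝 ((Q ω y).real {X | ∃ k, ∀ j ≥ k, H (X j)})) := by
    intro y
    haveI := hQ.prob ω y
    have hnull : Q ω y (⋃ S : ℕ, {X | ∀ k, InBox i S (X k)}) = 0 := by
      refine measure_iUnion_null fun S => ?_
      have := hQ.never_exit hex S y
      rwa [measureReal_def, ENNReal.toReal_eq_zero_iff, or_iff_left (measure_ne_top _ _)] at this
    have heq : (⋃ S, F S) =ᵐ[Q ω y] {X | ∃ k, ∀ j ≥ k, H (X j)} := by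
      refine Filter.eventuallyEq_set.2 ?_
      filter_upwards [measure_eq_zero_iff_ae_notMem.1 hnull] with X hX
      simp only [mem_iUnion, mem_setOf_eq, not_exists, not_forall] at hX ⊢
      constructor
      · rintro ⟨S, hS⟩
        obtain ⟨k, hk⟩ := hX S
        exact ⟨k, fun j hj => hS j ⟨k, hj, hk⟩⟩
      · rintro ⟨k, hk⟩
        obtain ⟨S, hS⟩ := exists_box (i := i) k X
        exact ⟨S, fun j ⟨m, hm, hm'⟩ => hk j (le_of_not_gt fun h => hm' (hS m (by omega)))⟩
    rw [← measureReal_congr heq]
    exact tendsto_real_iUnion hQ y ha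
  intro x
  refine le_of_tendsto_of_tendsto' (lim _) (lim _) fun S => ?_
  have out : ∀ y, ¬ InBox i S y → (Q ω y).real (F S) = (Q ω y).real {X | ∀ j, H (X j)} := by
    intro y hy
    refine measureReal_congr (Filter.eventuallyEq_set.2 ?_)
    filter_upwards [hQ.ae_start ω y] with X hX
    exact ⟨fun h j => h j ⟨0, by omega, by rwa [hX]⟩, fun h j _ => h j⟩
  refine monotone_of_harmonic (w := w) b hω (fun _ => True) (fun _ _ => trivial)
    (fun y => (Q ω y).real (F S))
    (fun y => (hQ.real_nonneg_le_one ω y _).1) (fun y => (hQ.real_nonneg_le_one ω y _).2)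
    ?_ (fun y _ hy => absurd trivial hy) ?_ (hex S) x
  · intro y hy _
    have e : pcons y ⁻¹' F S = F S := by
      ext X
      simp only [mem_preimage, F_def, mem_setOf_eq]
      refine ⟨fun h j ⟨k, hk, hk'⟩ => h (j + 1) ⟨k + 1, by omega, hk'⟩, fun h j ⟨k, hk, hk'⟩ => ?_⟩
      cases k with
      | zero => exact absurd hy hk'
      | succ k =>
          cases j with
          | zero => omega
          | succ j => exact h j ⟨k, by omega, hk'⟩
    rw [hQ.real_step ω y (hm S), e, avg]
  · intro y hy
    show (Q ω y).real (F S) ≤ (Q ω (y + vec (i, b))).real (F S)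
    rw [out y hy, out _ fun h => hy ((inBox_add_axis b).1 h)]
    exact hQ.forever_mono hω hex b H hH y

lemma dirEscape_eq (l : Fin d → ℝ) :
    dirEscape l = ⋂ n : ℕ, {X : ℕ → Site d | ∃ k, ∀ j ≥ k, (n : ℝ) ≤ proj l (X j)} := by
  ext X
  simp only [dirEscape, mem_setOf_eq, mem_iInter, tendsto_atTop, eventually_atTop, proj]
  refine ⟨fun h n => h n, fun h r => ?_⟩
  obtain ⟨n, hn⟩ := exists_nat_ge r
  obtain ⟨k, hk⟩ := h n
  exact ⟨k, fun j hj => hn.trans (hk j hj)⟩

lemma measurableSet_eventually (l : Fin d → ℝ) (r : ℝ) :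
    MeasurableSet {X : ℕ → Site d | ∃ k, ∀ j ≥ k, r ≤ proj l (X j)} := by
  simp only [setOf_exists, setOf_forall]
  exact MeasurableSet.iUnion fun k => MeasurableSet.iInter fun j => MeasurableSet.iInter fun _ =>
    measurableSet_at j fun x => r ≤ proj l x

lemma measurableSet_dirEscape (l : Fin d → ℝ) : MeasurableSet (dirEscape l) := by
  rw [dirEscape_eq]; exact MeasurableSet.iInter fun n => measurableSet_eventually l n

/-- The quenched escape probability is monotone along the random axis. -/
lemma IsQuenchedLaw.escape_mono (hQ : IsQuenchedLaw Q) (hω : ∀ x, FixedTransverse i w (ω x))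
    (hex : Exits ω i) (b : Bool) (l : Fin d → ℝ) (hl : 0 ≤ proj l (vec (i, b))) :
    ∀ x, (Q ω x).real (dirEscape l) ≤ (Q ω (x + vec (i, b))).real (dirEscape l) := by
  intro x
  rw [dirEscape_eq]
  have ha : Antitone fun n : ℕ => {X : ℕ → Site d | ∃ k, ∀ j ≥ k, (n : ℝ) ≤ proj l (X j)} :=
    fun m n hmn X ⟨k, hk⟩ => ⟨k, fun j hj => le_trans (by exact_mod_cast hmn) (hk j hj)⟩
  refine le_of_tendsto_of_tendsto'
    (tendsto_real_iInter hQ _ (fun n => measurableSet_eventually l _) ha)
    (tendsto_real_iInter hQ _ (fun n => measurableSet_eventually l _) ha) fun n => ?_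
  exact hQ.eventually_mono hω hex b (fun y => (n : ℝ) ≤ proj l y)
    (fun y hy => by rw [proj_add]; linarith) x

lemma pcons_preimage_dirEscape (l : Fin d → ℝ) (x : Site d) :
    pcons x ⁻¹' dirEscape l = dirEscape l := by
  ext X
  simp only [mem_preimage, dirEscape, mem_setOf_eq]
  exact (tendsto_add_atTop_iff_nat (f := fun k => ∑ j, l j * (pcons x X k j : ℝ)) 1).symm

lemma IsQuenchedLaw.escape_shift (hQ : IsQuenchedLaw Q) (ω : Env d) (l : Fin d → ℝ)
    (z x : Site d) :
    (Q (shiftEnv z ω) x).real (dirEscape l) = (Q ω (x + z)).real (dirEscape l) := by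
  have hm : Measurable fun (X : ℕ → Site d) k => X k - z :=
    measurable_pi_lambda _ fun k => (measurable_of_countable fun y : Site d => y - z).comp
      (measurable_pi_apply k)
  rw [hQ.shift, measureReal_def, measureReal_def, Measure.map_apply hm (measurableSet_dirEscape l)]
  congr 2
  ext X
  simp only [mem_preimage, dirEscape, mem_setOf_eq]
  have : (fun k => ∑ j, l j * ((X k - z) j : ℝ)) = fun k => (∑ j, l j * (X k j : ℝ)) + -proj l z := by
    funext k
    simp [proj, sub_eq_add_neg, mul_add, Finset.sum_add_distrib]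
  rw [this]
  exact ⟨fun h => by simpa using tendsto_atTop_add_const_right _ (proj l z) h,
    fun h => tendsto_atTop_add_const_right _ _ h⟩

end Vale.Agent.P147
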