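import Vale.Agent.P147.Defs

open MeasureTheory Set Filter Topology
open scoped ENNReal

namespace Vale.Agent.P147

variable {d : ℕ}

lemma shiftEnv_iid (μ : Measure (Row d)) [IsProbabilityMeasure μ] (z : Site d) :
    MeasurePreserving (shiftEnv z) (Measure.infinitePi fun _ : Site d => μ)
      (Measure.infinitePi fun _ : Site d => μ) := by
  have hm : Measurable (shiftEnv (d := d) z) :=
    measurable_pi_lambda _ fun x => measurable_pi_apply (x + z)
  refine ⟨hm, Measure.eq_infinitePi _ fun s t ht => ?_⟩
  classical
  rw [Measure.map_apply hm (MeasurableSet.pi s.countable_toSet fun x _ => ht x)]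
  have : shiftEnv z ⁻¹' (s : Set (Site d)).pi t
      = ((s.map (addRightEmbedding z) : Finset (Site d)) : Set (Site d)).pi fun x => t (x - z) := by
    ext ω
    simp only [shiftEnv, mem_preimage, Set.mem_pi, Finset.mem_coe, Finset.mem_map,
      addRightEmbedding_apply, forall_exists_index, and_imp]
    exact ⟨fun h x y hy hxy => by subst hxy; simpa using h y hy,
      fun h y hy => by simpa using h (y + z) y hy rfl⟩
  rw [this, Measure.infinitePi_pi _ (fun x _ => ht _), Finset.prod_map]
  simp

/-- An iid environment is ergodic for each coordinate translation. -/
lemma ergodic_iid (μ : Measure (Row d)) [IsProbabilityMeasure μ] (i : Fin d) :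
    Ergodic (shiftEnv (Pi.single i (1 : ℤ))) (Measure.infinitePi fun _ : Site d => μ) := by
  classical
  set P := Measure.infinitePi fun _ : Site d => μ with P_def
  set e : Site d := Pi.single i 1 with e_def
  refine { toMeasurePreserving := shiftEnv_iid μ e, aeconst_set := fun E hE hinv => ?_ }
  set C := squareCylinders fun _ : Site d => {s : Set (Row d) | MeasurableSet s} with C_def
  have gen : (inferInstance : MeasurableSpace (Env d)) = MeasurableSpace.generateFrom C :=
    generateFrom_squareCylinders.symm
  have pisys : IsPiSystem C :=
    isPiSystem_squareCylinders (fun _ => MeasurableSpace.isPiSystem_measurableSet) (by simp)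
  have iterinv : ∀ n : ℕ, shiftEnv (n • e) ⁻¹' E = E := by
    intro n
    induction n with
    | zero =>
        have : shiftEnv ((0 : ℕ) • e) = id := by funext ω x; simp [shiftEnv]
        rw [this]; rfl
    | succ n ih =>
        have : shiftEnv ((n + 1) • e) = fun ω => shiftEnv e (shiftEnv (n • e) ω) := by
          funext ω x; simp only [shiftEnv, succ_nsmul', add_assoc]
        calc shiftEnv ((n + 1) • e) ⁻¹' E = shiftEnv (n • e) ⁻¹' (shiftEnv e ⁻¹' E) := by
              rw [this]; rfl
          _ = E := by rw [hinv, ih]
  have indep : ∀ (s : Finset (Site d)) (t : Site d → Set (Row d)), (∀ x, MeasurableSet (t x)) →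
      P ((s : Set (Site d)).pi t ∩ E) = P ((s : Set (Site d)).pi t) * P E := by
    intro s t ht
    set B := (s : Set (Site d)).pi t with B_def
    have mB : MeasurableSet B := MeasurableSet.pi s.countable_toSet fun x _ => ht x
    have mix : ∀ D : Set (Env d), MeasurableSet D →
        Tendsto (fun n : ℕ => (P (B ∩ shiftEnv (n • e) ⁻¹' D)).toReal) atTop
          (𝓝 ((P B).toReal * (P D).toReal)) := by
      intro D hD
      induction D, hD using MeasurableSpace.induction_on_inter gen pisys with
      | empty => simp
      | basic D hD =>
          obtain ⟨s', t', ht', rfl⟩ := by simpa [C_def, squareCylinders] using hD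
          refine tendsto_const_nhds.congr' ?_
          obtain ⟨N, hN⟩ : ∃ N : ℕ, ∀ x ∈ s, ∀ y ∈ s', (x i - y i).natAbs < N :=
            ⟨(s.sup fun x => s'.sup fun y => (x i - y i).natAbs) + 1, fun x hx y hy =>
              Nat.lt_succ_of_le (le_trans (Finset.le_sup (f := fun y => (x i - y i).natAbs) hy)
                (Finset.le_sup (f := fun x => s'.sup fun y => (x i - y i).natAbs) hx))⟩
          filter_upwards [eventually_ge_atTop N] with n hn
          obtain ⟨z, hz, hzi⟩ : ∃ z, n • e = z ∧ z i = (n : ℤ) := ⟨_, rfl, by simp [e_def]⟩
          rw [hz]
          have mt' : ∀ y ∈ s', MeasurableSet (t' y) := fun y hy => by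
            first | exact ht' y | exact ht' y hy
          set s2 : Finset (Site d) := s'.map (addRightEmbedding (z)) with s2_def
          have disj : Disjoint s s2 := by
            rw [Finset.disjoint_left]
            intro x hx hx2
            simp only [s2_def, Finset.mem_map, addRightEmbedding_apply] at hx2
            obtain ⟨y, hy, rfl⟩ := hx2
            have := hN _ hx y hy
            simp [hzi] at this
            omega
          set T : Site d → Set (Row d) := fun x => if x ∈ s then t x else t' (x - z)
          have hBD : B ∩ shiftEnv (z) ⁻¹' (s' : Set (Site d)).pi t'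
              = ((s ∪ s2 : Finset (Site d)) : Set (Site d)).pi T := by
            ext ω
            simp only [mem_inter_iff, mem_preimage, Set.mem_pi, Finset.mem_coe, shiftEnv,
              Finset.mem_union, B_def]
            constructor
            · rintro ⟨h1, h2⟩ x hx
              by_cases hxs : x ∈ s
              · simp [T, hxs, h1 x hxs]
              · obtain hx := hx.resolve_left hxs
                simp only [s2_def, Finset.mem_map, addRightEmbedding_apply] at hx
                obtain ⟨y, hy, rfl⟩ := hx
                simpa [T, hxs] using h2 y hy
            · intro h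
              refine ⟨fun x hx => by simpa [T, hx] using h x (Or.inl hx), fun y hy => ?_⟩
              have hm : y + z ∈ s2 := by simp [s2_def, hy]
              have hns : y + z ∉ s := fun h' => Finset.disjoint_left.1 disj h' hm
              simpa [T, hns] using h _ (Or.inr hm)
          have mT : ∀ x ∈ s ∪ s2, MeasurableSet (T x) := by
            intro x hx
            by_cases hxs : x ∈ s
            · simpa [T, hxs] using ht x
            · obtain hx := (Finset.mem_union.1 hx).resolve_left hxs
              simp only [s2_def, Finset.mem_map, addRightEmbedding_apply] at hx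
              obtain ⟨y, hy, rfl⟩ := hx
              simpa [T, hxs] using mt' y hy
          rw [hBD, B_def, P_def, Measure.infinitePi_pi _ mT, Measure.infinitePi_pi _ (fun x _ => ht x),
            Measure.infinitePi_pi _ mt', Finset.prod_union disj, ENNReal.toReal_mul]
          congr 2
          · exact Finset.prod_congr rfl fun x hx => by simp [T, hx]
          · rw [s2_def, Finset.prod_map]
            refine Finset.prod_congr rfl fun y hy => ?_
            have hm : y + z ∈ s2 := by simp [s2_def, hy]
            have hns : y + z ∉ s := fun h' => Finset.disjoint_left.1 disj h' hm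
            simp [T, hns]
      | compl D hD ih =>
          have h1 : ∀ n : ℕ, (P (B ∩ shiftEnv (n • e) ⁻¹' Dᶜ)).toReal
              = (P B).toReal - (P (B ∩ shiftEnv (n • e) ⁻¹' D)).toReal := by
            intro n
            have := measureReal_inter_add_sdiff (μ := P) (s := B) ((shiftEnv_iid μ (n • e)).measurable hD)
            rw [preimage_compl, ← diff_eq]
            simp only [measureReal_def] at this
            linarith
          simp only [h1]
          have h2 : (P Dᶜ).toReal = 1 - (P D).toReal := probReal_compl_eq_one_sub hD
          rw [h2, mul_sub, mul_one]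
          exact tendsto_const_nhds.sub ih
      | iUnion f hdis hf ih =>
          have hs : ∀ n : ℕ, (P (B ∩ shiftEnv (n • e) ⁻¹' ⋃ k, f k)).toReal
              = ∑' k, (P (B ∩ shiftEnv (n • e) ⁻¹' f k)).toReal := by
            intro n
            rw [preimage_iUnion, inter_iUnion, measure_iUnion
              (fun a b hab => ((hdis hab).preimage _).mono inter_subset_right inter_subset_right)
              (fun k => mB.inter ((shiftEnv_iid μ (n • e)).measurable (hf k))),
              ENNReal.tsum_toReal_eq (fun k => measure_ne_top _ _)]
          simp only [hs]
          have hu : (P (⋃ k, f k)).toReal = ∑' k, (P (f k)).toReal := by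
            rw [measure_iUnion hdis hf, ENNReal.tsum_toReal_eq (fun k => measure_ne_top _ _)]
          rw [hu, ← tsum_mul_left]
          refine tendsto_tsum_of_dominated_convergence
            (bound := fun k => (P (f k)).toReal) ?_ ih ?_
          · refine ENNReal.summable_toReal ?_
            rw [← measure_iUnion hdis hf]
            exact measure_ne_top _ _
          · refine Eventually.of_forall fun n k => ?_
            rw [Real.norm_eq_abs, abs_of_nonneg ENNReal.toReal_nonneg]
            refine ENNReal.toReal_mono (measure_ne_top _ _) ?_
            exact (measure_mono inter_subset_right).trans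
              ((shiftEnv_iid μ (n • e)).measure_preimage (hf k).nullMeasurableSet).le
    have h := mix E hE
    simp only [iterinv] at h
    have := tendsto_nhds_unique h tendsto_const_nhds
    rw [← ENNReal.toReal_mul] at this
    exact ((ENNReal.toReal_eq_toReal_iff' (ENNReal.mul_ne_top (measure_ne_top _ _) (measure_ne_top _ _))
      (measure_ne_top _ _)).1 this).symm
  have heq : P.restrict E = P E • P := by
    refine ext_of_generate_finite C gen pisys ?_ (by simp)
    intro B hB
    obtain ⟨s, t, ht, rfl⟩ := by simpa [C_def, squareCylinders] using hB
    set t2 : Site d → Set (Row d) := fun x => if x ∈ s then t x else univ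
    have ht2 : ∀ x, MeasurableSet (t2 x) := by
      intro x
      by_cases hx : x ∈ s
      · simp only [t2, hx, if_true]; first | exact ht x | exact ht x hx
      · simp [t2, hx]
    have : (s : Set (Site d)).pi t = (s : Set (Site d)).pi t2 :=
      Set.pi_congr rfl fun x hx => by simp [t2, Finset.mem_coe.1 hx]
    rw [this, Measure.restrict_apply (MeasurableSet.pi s.countable_toSet fun x _ => ht2 x),
      indep s t2 ht2, Measure.smul_apply, smul_eq_mul, mul_comm]
  have := congrArg (fun ν : Measure (Env d) => ν E) heq
  simp only [Measure.restrict_apply hE, inter_self, Measure.smul_apply, smul_eq_mul] at this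
  rw [eventuallyConst_set]
  rcases eq_or_ne (P E) 0 with h | h
  · exact Or.inr (measure_eq_zero_iff_ae_notMem.1 h)
  · have h1 : P E = 1 := by
      have := (ENNReal.mul_eq_left h (measure_ne_top _ _)).1 this.symm
      exact this
    exact Or.inl ((mem_ae_iff_prob_eq_one hE).2 h1)

end Vale.Agent.P147
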