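import Mathlib

open MeasureTheory

namespace Vale.Agent.P147

/-- The sites of the lattice. -/
abbrev Site (d : ℕ) : Type := Fin d → ℤ

/-- The coordinate unit steps: an axis and a sign. -/
abbrev Step (d : ℕ) : Type := Fin d × Bool

/-- The probability vectors on the unit steps. -/
abbrev Row (d : ℕ) : Type := {p : Step d → ℝ // (∀ a, 0 ≤ p a) ∧ ∑ a, p a = 1}

/-- The environments. -/
abbrev Env (d : ℕ) : Type := Site d → Row d

variable {d : ℕ}

/-- The lattice vector of a step. -/
def vec (a : Step d) : Site d := Pi.single a.1 (if a.2 then 1 else -1)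

/-- The probability of the jump by the vector `z`, zero unless `z` is a unit step. -/
noncomputable def tr (p : Row d) (z : Site d) : ℝ := ∑ a, if vec a = z then p.1 a else 0

/-- `Q ω x` is the law of the nearest-neighbour Markov chain started at `x` in the environment `ω`:
it gives every finite path the product of its transition probabilities. -/
def IsQuenchedLaw (Q : Env d → Site d → Measure (ℕ → Site d)) : Prop :=
  ∀ ω x, IsProbabilityMeasure (Q ω x) ∧ ∀ (n : ℕ) (v : ℕ → Site d),
    Q ω x {X | ∀ k ≤ n, X k = v k} = ENNReal.ofReal
      ((if v 0 = x then 1 else 0) * ∏ k ∈ Finset.range n, tr (ω (v k)) (v (k + 1) - v k))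

/-- The event of escape to infinity in the direction `l`. -/
def dirEscape (l : Fin d → ℝ) : Set (ℕ → Site d) :=
  {X | Filter.Tendsto (fun k => ∑ j, l j * (X k j : ℝ)) Filter.atTop Filter.atTop}

/-- Translation of an environment by the vector `z`. -/
def shiftEnv (z : Site d) (ω : Env d) : Env d := fun x => ω (x + z)

/-- The probability vector `p` has, outside the axis `i`, the fixed conditional law `w`, with
positive total mass. -/
def FixedTransverse (i : Fin d) (w : Step d → ℝ) (p : Row d) : Prop :=
  p.1 (i, true) + p.1 (i, false) < 1 ∧
    ∀ a : Step d, a.1 ≠ i → p.1 a = w a * (1 - p.1 (i, true) - p.1 (i, false))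

end Vale.Agent.P147
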