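import Vale.Agent.P147.Markov

open MeasureTheory Set
open scoped ENNReal

namespace Vale.Agent.P147

variable {d : ℕ}

lemma exists_quenchedLaw (d : ℕ) :
    ∃ Q : Env d → Site d → Measure (ℕ → Site d), IsQuenchedLaw Q := by
  classical
  let ν : Env d → ℕ × Site d → Measure (Step d) := fun ω z =>
    Measure.sum fun a => ENNReal.ofReal ((ω z.2).1 a) • Measure.dirac a
  haveI hν : ∀ ω z, IsProbabilityMeasure (ν ω z) := by
    intro ω z
    constructor
    simp only [ν, Measure.sum_apply _ MeasurableSet.univ, Measure.smul_apply, smul_eq_mul,
      measure_univ, mul_one, tsum_fintype]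
    rw [← ENNReal.ofReal_sum_of_nonneg (fun a _ => (ω z.2).2.1 a), (ω z.2).2.2, ENNReal.ofReal_one]
  let walk : Site d → (ℕ × Site d → Step d) → ℕ → Site d := fun x ξ k =>
    Nat.rec (motive := fun _ => Site d) x (fun k y => y + vec (ξ (k, y))) k
  have wm : ∀ x k, Measurable fun ξ => walk x ξ k := by
    intro x k
    induction k with
    | zero => exact measurable_const
    | succ k ih =>
        refine measurable_to_countable' fun y => ?_
        have : (fun ξ => walk x ξ (k + 1)) ⁻¹' {y}
            = ⋃ z : Site d, (fun ξ => walk x ξ k) ⁻¹' {z} ∩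
                (fun ξ => z + vec (ξ (k, z))) ⁻¹' {y} := by
          ext ξ
          simp [walk]
        rw [this]
        exact MeasurableSet.iUnion fun z => (ih (measurableSet_singleton z)).inter
          (((measurable_of_countable fun a : Step d => z + vec a).comp (measurable_pi_apply (k, z)))
            (measurableSet_singleton y))
  have hwm : ∀ x, Measurable (walk x) := fun x => measurable_pi_lambda _ fun k => wm x k
  refine ⟨fun ω x => (Measure.infinitePi (ν ω)).map (walk x), fun ω x =>
    ⟨Measure.isProbabilityMeasure_map (hwm x).aemeasurable, fun n v => ?_⟩⟩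
  show (Measure.infinitePi (ν ω)).map (walk x) (cyl n v) = _
  rw [Measure.map_apply (hwm x) (measurableSet_cyl n v)]
  by_cases h : v 0 = x
  · set s : Finset (ℕ × Site d) := (Finset.range n).image fun k => (k, v k) with s_def
    set t : ℕ × Site d → Set (Step d) := fun z => {a | vec a = v (z.1 + 1) - v z.1} with t_def
    have hpre : walk x ⁻¹' cyl n v = (s : Set (ℕ × Site d)).pi t := by
      ext ξ
      simp only [mem_preimage, cyl, mem_setOf_eq, Set.mem_pi, s_def, t_def, Finset.coe_image,
        Finset.coe_range, mem_image, Set.mem_Iio, forall_exists_index, and_imp]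
      constructor
      · intro hk z k hkn hz
        subst hz
        have h1 := hk (k + 1) (by omega)
        have h2 := hk k (by omega)
        simp only [walk] at h1 h2 ⊢
        rw [h2] at h1
        rw [← h1]; abel
      · intro hk k hkn
        induction k with
        | zero => exact h.symm
        | succ k ih =>
            have h2 := ih (by omega)
            have h3 := hk (k, v k) k (by omega) rfl
            simp only [walk] at h2 h3 ⊢
            rw [h2, h3]; abel
    rw [hpre, Measure.infinitePi_pi _ (fun z _ => MeasurableSet.of_discrete), s_def,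
      Finset.prod_image (fun a _ b _ hab => (Prod.ext_iff.1 hab).1),
      if_pos h, one_mul, ENNReal.ofReal_prod_of_nonneg (fun k _ => tr_nonneg _ _)]
    refine Finset.prod_congr rfl fun k _ => ?_
    simp only [ν, t_def, Measure.sum_apply _ MeasurableSet.of_discrete, Measure.smul_apply,
      smul_eq_mul, Measure.dirac_apply' _ MeasurableSet.of_discrete, tsum_fintype, tr]
    rw [ENNReal.ofReal_sum_of_nonneg (fun a _ => by split_ifs <;> simp [(ω (v k)).2.1 a])]
    refine Finset.sum_congr rfl fun a _ => ?_
    by_cases ha : vec a = v (k + 1) - v k <;> simp [ha]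
  · have : walk x ⁻¹' cyl n v = ∅ :=
      Set.eq_empty_of_forall_notMem fun ξ hξ => h (hξ 0 (Nat.zero_le n)).symm
    simp [this, h]

end Vale.Agent.P147
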