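import Vale.Agent.P147.Events

open MeasureTheory Set Filter Topology
open scoped ENNReal

namespace Vale.Agent.P147

variable {d : ℕ} {i : Fin d} {w : Step d → ℝ}

lemma measurable_shiftEnv (z : Site d) : Measurable (shiftEnv (d := d) z) :=
  measurable_pi_lambda _ fun x => measurable_pi_apply (x + z)

lemma measurableSet_goodRow (i : Fin d) (S : ℕ) (a : Step d) (η : ℝ) (g : ℤ) :
    MeasurableSet {ω : Env d | GoodRow ω i S a η g} := by
  simp only [GoodRow, setOf_forall]
  refine MeasurableSet.iInter fun x => MeasurableSet.iInter fun _ => MeasurableSet.iInter fun _ => ?_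
  exact measurableSet_le measurable_const
    ((measurable_pi_apply a).comp (measurable_subtype_coe.comp (measurable_pi_apply x)))

lemma goodRow_shift (ω : Env d) (i : Fin d) (S : ℕ) (a : Step d) (η : ℝ) (m g : ℤ) :
    GoodRow (shiftEnv (Pi.single i m) ω) i S a η g ↔ GoodRow ω i S a η (g + m) := by
  constructor
  · intro h x hx hxi
    have := h (x - Pi.single i m) (fun j hj => by simpa [hj] using hx j hj) (by simp [hxi])
    simpa [shiftEnv] using this
  · intro h x hx hxi
    exact h (x + Pi.single i m) (fun j hj => by simpa [hj] using hx j hj) (by simp [hxi])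

/-- For a stationary law which is ergodic along the random axis, almost every environment is left
from every transverse box. -/
lemma ae_exits {P : Measure (Env d)} [IsProbabilityMeasure P]
    (hshift : ∀ z, MeasurePreserving (shiftEnv z) P P)
    (herg : Ergodic (shiftEnv (Pi.single i 1)) P)
    (hclass : ∀ᵐ ω ∂P, ∀ x, FixedTransverse i w (ω x)) : ∀ᵐ ω ∂P, Exits ω i := by
  classical
  obtain ⟨ω₀, hω₀⟩ := hclass.exists
  obtain ⟨a, ha, hwa⟩ : ∃ a ∈ transSteps i, 0 < w a := by
    by_contra hcon
    push Not at hcon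
    have := Finset.sum_nonpos hcon
    rw [(hω₀ 0).weight_sum] at this
    norm_num at this
  have hai : a.1 ≠ i := by simpa [transSteps] using ha
  have hpos : ∀ ω : Env d, (∀ x, FixedTransverse i w (ω x)) → ∀ x, 0 < (ω x).1 a := by
    intro ω hω x
    rw [(hω x).2 a hai]
    exact mul_pos hwa (hω x).rmass_pos
  have key : ∀ S : ℕ, ∀ᵐ ω ∂P, ∃ η : ℝ, 0 < η ∧ ∀ m : ℤ,
      (∃ g, m ≤ g ∧ GoodRow ω i S a η g) ∧ ∃ g, g ≤ m ∧ GoodRow ω i S a η g := by
    intro S
    set G : ℕ → ℤ → Set (Env d) := fun k g => {ω | GoodRow ω i S a (1 / (k + 1 : ℝ)) g} with G_def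
    obtain ⟨k, hk⟩ : ∃ k, P (G k 0) ≠ 0 := by
      by_contra hcon
      push Not at hcon
      have h0 : ∀ᵐ ω ∂P, ω ∉ ⋃ k, G k 0 :=
        measure_eq_zero_iff_ae_notMem.1 (measure_iUnion_null hcon)
      obtain ⟨ω, hω, hω'⟩ := (hclass.and h0).exists
      apply hω'
      set Z := (finite_slab i S 0 0).toFinset
      rcases Z.eq_empty_or_nonempty with hZ | hZ
      · refine mem_iUnion.2 ⟨0, fun x hx hxi => ?_⟩
        have : x ∈ Z := by simp [Z, hx, hxi]
        simp [hZ] at this
      · obtain ⟨z, -, zmin⟩ := Z.exists_min_image (fun x => (ω x).1 a) hZ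
        obtain ⟨k, hk⟩ := exists_nat_one_div_lt (hpos ω hω z)
        refine mem_iUnion.2 ⟨k, fun x hx hxi => hk.le.trans (zmin x ?_)⟩
        simp [Z, hx, hxi]
    have hGm : ∀ g, P (G k g) = P (G k 0) := by
      intro g
      have h := (hshift (Pi.single i g)).measure_preimage
        (measurableSet_goodRow i S a (1 / (k + 1 : ℝ)) 0).nullMeasurableSet
      refine Eq.trans ?_ h
      congr 1
      ext ω
      simp [G_def, goodRow_shift]
    have up : ∀ m : ℤ, ∀ᵐ ω ∂P, ω ∈ ⋃ g, ⋃ (_ : m ≤ g), G k g := by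
      intro m
      set D := ⋃ g, ⋃ (_ : m ≤ g), G k g with D_def
      have hD : MeasurableSet D :=
        MeasurableSet.iUnion fun g => MeasurableSet.iUnion fun _ => measurableSet_goodRow ..
      have hsub : shiftEnv (Pi.single i 1) ⁻¹' D ⊆ D := by
        intro ω hω
        simp only [D_def, mem_preimage, mem_iUnion, G_def, mem_setOf_eq, goodRow_shift] at hω ⊢
        obtain ⟨g, hg, hg'⟩ := hω
        exact ⟨g + 1, by omega, hg'⟩
      rcases herg.ae_empty_or_univ_of_preimage_ae_le' hD.nullMeasurableSet hsub.eventuallyLE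
        (measure_ne_top _ _) with h | h
      · exfalso
        have h1 : G k m ⊆ D := fun ω hω => mem_iUnion₂.2 ⟨m, le_rfl, hω⟩
        have := measure_mono_null h1 (by rw [measure_congr h, measure_empty])
        rw [hGm] at this
        exact hk this
      · filter_upwards [Filter.eventuallyEq_set.1 h] with ω hω
        exact hω.2 trivial
    have down : ∀ m : ℤ, ∀ᵐ ω ∂P, ω ∈ ⋃ g, ⋃ (_ : g ≤ m), G k g := by
      intro m
      set D := ⋃ g, ⋃ (_ : g ≤ m), G k g with D_def
      have hD : MeasurableSet D :=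
        MeasurableSet.iUnion fun g => MeasurableSet.iUnion fun _ => measurableSet_goodRow ..
      have hsub : D ⊆ shiftEnv (Pi.single i 1) ⁻¹' D := by
        intro ω hω
        simp only [D_def, mem_preimage, mem_iUnion, G_def, mem_setOf_eq, goodRow_shift] at hω ⊢
        obtain ⟨g, hg, hg'⟩ := hω
        exact ⟨g - 1, by omega, by rwa [sub_add_cancel]⟩
      rcases herg.ae_empty_or_univ_of_ae_le_preimage' hD.nullMeasurableSet hsub.eventuallyLE
        (measure_ne_top _ _) with h | h
      · exfalso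
        have h1 : G k m ⊆ D := fun ω hω => mem_iUnion₂.2 ⟨m, le_rfl, hω⟩
        have := measure_mono_null h1 (by rw [measure_congr h, measure_empty])
        rw [hGm] at this
        exact hk this
      · filter_upwards [Filter.eventuallyEq_set.1 h] with ω hω
        exact hω.2 trivial
    filter_upwards [ae_all_iff.2 up, ae_all_iff.2 down] with ω h1 h2
    refine ⟨1 / (k + 1 : ℝ), by positivity, fun m => ?_⟩
    simp only [mem_iUnion, G_def, mem_setOf_eq] at h1 h2
    obtain ⟨g, hg, hg'⟩ := h1 m
    obtain ⟨g', hgg, hgg'⟩ := h2 m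
    exact ⟨⟨g, hg, hg'⟩, g', hgg, hgg'⟩
  filter_upwards [hclass, ae_all_iff.2 key] with ω hω hgood S x
  obtain ⟨η, hη, hg⟩ := hgood S
  exact tendsto_stay hai (hpos ω hω) hη hg x

/-- The zero-one law for stationary environments ergodic along the random axis. -/
theorem zero_one_stationary (P : Measure (Env d)) [IsProbabilityMeasure P]
    (hshift : ∀ z, MeasurePreserving (shiftEnv z) P P)
    (herg : Ergodic (shiftEnv (Pi.single i 1)) P)
    (hrow : ∀ᵐ ω ∂P, FixedTransverse i w (ω 0))
    {Q : Env d → Site d → Measure (ℕ → Site d)} (hQ : IsQuenchedLaw Q) (l : Fin d → ℝ) :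
    ∃ c : ℝ≥0∞, (c = 0 ∨ c = 1) ∧ (∀ᵐ ω ∂P, ∀ x, Q ω x (dirEscape l) = c) ∧
      ∫⁻ ω, Q ω 0 (dirEscape l) ∂P = c := by
  have hclass : ∀ᵐ ω ∂P, ∀ x, FixedTransverse i w (ω x) := by
    refine ae_all_iff.2 fun x => ?_
    filter_upwards [(hshift x).quasiMeasurePreserving.ae hrow] with ω hω
    simpa [shiftEnv] using hω
  have hex := ae_exits hshift herg hclass
  set G : Site d → Env d → ℝ := fun x ω => (Q ω x).real (dirEscape l) with G_def
  have Gm : ∀ x, Measurable (G x) := fun x => hQ.measurable_real x (measurableSet_dirEscape l)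
  have Gcov : ∀ z ω, G 0 (shiftEnv z ω) = G z ω := by
    intro z ω
    simp only [G_def]
    rw [hQ.escape_shift ω l z 0, zero_add]
  have Gint : Integrable (G 0) P :=
    Integrable.of_bound (Gm 0).aestronglyMeasurable 1 (Eventually.of_forall fun ω => by
      rw [Real.norm_eq_abs, abs_le]
      have := hQ.real_nonneg_le_one ω 0 (dirEscape l)
      constructor <;> simp only [G_def] <;> linarith [this.1, this.2])
  obtain ⟨b, hb⟩ : ∃ b : Bool, 0 ≤ proj l (vec (i, b)) := by
    rcases le_total 0 (l i) with h | h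
    · exact ⟨true, by simpa [proj_vec] using h⟩
    · exact ⟨false, by simpa [proj_vec] using h⟩
  have hle : G 0 ≤ᵐ[P] fun ω => G 0 (shiftEnv (vec (i, b)) ω) := by
    filter_upwards [hclass, hex] with ω hω hωex
    rw [Gcov]
    simpa [G_def] using hQ.escape_mono hω hωex b l hb 0
  have hint2 : Integrable (fun ω => G 0 (shiftEnv (vec (i, b)) ω)) P :=
    (hshift (vec (i, b))).integrable_comp_of_integrable Gint
  have heq : G 0 =ᵐ[P] fun ω => G 0 (shiftEnv (vec (i, b)) ω) := by
    refine (integral_eq_iff_of_ae_le Gint hint2 hle).1 ?_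
    have h2 : ∫ ω, G 0 (shiftEnv (vec (i, b)) ω) ∂P = ∫ ω, G 0 ω ∂P.map (shiftEnv (vec (i, b))) :=
      (integral_map (hshift (vec (i, b))).measurable.aemeasurable
        (Gm 0).aestronglyMeasurable).symm
    rw [h2, (hshift (vec (i, b))).map_eq]
  have heq' : (fun ω => G 0 (shiftEnv (Pi.single i 1) ω)) =ᵐ[P] G 0 := by
    cases b with
    | true => exact EventuallyEq.symm (by simpa [vec] using heq)
    | false =>
        have := (hshift (Pi.single i 1)).quasiMeasurePreserving.ae_eq_comp heq
        refine this.trans (Eventually.of_forall fun ω => ?_)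
        show G 0 (shiftEnv (vec (i, false)) (shiftEnv (Pi.single i 1) ω)) = G 0 ω
        congr 1
        funext x
        simp [shiftEnv, vec, add_assoc, ← Pi.single_add]
  obtain ⟨c, hc⟩ := herg.ae_eq_const_of_ae_eq_comp_ae (Gm 0).aestronglyMeasurable heq'
  have hall : ∀ᵐ ω ∂P, ∀ x, G x ω = c := by
    refine ae_all_iff.2 fun x => ?_
    filter_upwards [(hshift x).quasiMeasurePreserving.ae hc] with ω hω
    rw [← Gcov]
    exact hω
  have hc01 : c = 0 ∨ c = 1 := by
    obtain ⟨ω, hω⟩ := hall.exists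
    exact hQ.zero_one ω (measurableSet_dirEscape l) (pcons_preimage_dirEscape l) hω
  have hall' : ∀ᵐ ω ∂P, ∀ x, Q ω x (dirEscape l) = ENNReal.ofReal c := by
    filter_upwards [hall] with ω hω x
    haveI := hQ.prob ω x
    rw [← hω x, G_def, ofReal_measureReal]
  refine ⟨ENNReal.ofReal c, ?_, hall', ?_⟩
  · rcases hc01 with h | h <;> simp [h]
  · rw [lintegral_congr_ae (g := fun _ => ENNReal.ofReal c) (hall'.mono fun ω hω => hω 0)]
    simp

end Vale.Agent.P147
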