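import Vale.Agent.P147.Defs

open MeasureTheory Set
open scoped ENNReal

namespace Vale.Agent.P147

variable {d : ℕ}

/-- A finite-path cylinder. -/
def cyl (n : ℕ) (v : ℕ → Site d) : Set (ℕ → Site d) := {X | ∀ k ≤ n, X k = v k}

/-- All cylinders. -/
def cyls (d : ℕ) : Set (Set (ℕ → Site d)) := {s | ∃ n v, s = cyl n v}

/-- A path preceded by a starting point. -/
def pcons (x : Site d) (X : ℕ → Site d) : ℕ → Site d
  | 0 => x
  | k + 1 => X k

/-- The path without its first point. -/
def ptail (X : ℕ → Site d) : ℕ → Site d := fun k => X (k + 1)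

lemma measurableSet_cyl (n : ℕ) (v : ℕ → Site d) : MeasurableSet (cyl n v) := by
  have : cyl n v = ⋂ k ∈ Finset.range (n + 1), {X : ℕ → Site d | X k = v k} := by
    ext X; simp [cyl]
  rw [this]
  exact Finset.measurableSet_biInter _ fun k _ =>
    (measurableSet_singleton (v k)).preimage (measurable_pi_apply k)

lemma isPiSystem_cyls : IsPiSystem (cyls d) := by
  rintro s ⟨n, v, rfl⟩ t ⟨m, w, rfl⟩ ⟨X, hX1, hX2⟩
  refine ⟨max n m, X, ?_⟩
  ext Y
  constructor
  · rintro ⟨h1, h2⟩ k hk
    rcases le_total n m with h | h
    · rw [max_eq_right h] at hk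
      rw [h2 k hk, hX2 k hk]
    · rw [max_eq_left h] at hk
      rw [h1 k hk, hX1 k hk]
  · intro h
    exact ⟨fun k hk => (h k (hk.trans (le_max_left _ _))).trans (hX1 k hk),
      fun k hk => (h k (hk.trans (le_max_right _ _))).trans (hX2 k hk)⟩

lemma generateFrom_cyls :
    (inferInstance : MeasurableSpace (ℕ → Site d)) = MeasurableSpace.generateFrom (cyls d) := by
  refine le_antisymm ?_ (MeasurableSpace.generateFrom_le ?_)
  · rw [MeasurableSpace.pi, iSup_le_iff]
    intro k
    intro s hs
    obtain ⟨t, -, rfl⟩ := hs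
    have : (fun X : ℕ → Site d => X k) ⁻¹' t
        = ⋃ w : Fin (k + 1) → Site d, ⋃ (_ : w (Fin.last k) ∈ t),
            cyl k (fun j => if h : j < k + 1 then w ⟨j, h⟩ else 0) := by
      ext X
      simp only [mem_preimage, mem_iUnion, cyl, mem_setOf_eq]
      constructor
      · intro h
        exact ⟨fun j => X j, by simpa using h, fun j hj => by rw [dif_pos (Nat.lt_succ_of_le hj)]⟩
      · rintro ⟨w, hw, hX⟩
        rw [hX k le_rfl, dif_pos (Nat.lt_succ_self k)]
        exact hw
    rw [this]
    exact MeasurableSet.iUnion fun w => MeasurableSet.iUnion fun _ =>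
      MeasurableSpace.measurableSet_generateFrom ⟨_, _, rfl⟩
  · rintro s ⟨n, v, rfl⟩
    exact measurableSet_cyl n v

lemma measurable_pcons (x : Site d) : Measurable (pcons x) :=
  measurable_pi_lambda _ fun k => by cases k <;> simp only [pcons] <;> fun_prop

lemma measurable_ptail : Measurable (ptail (d := d)) :=
  measurable_pi_lambda _ fun k => measurable_pi_apply (k + 1)

lemma tr_nonneg (p : Row d) (z : Site d) : 0 ≤ tr p z :=
  Finset.sum_nonneg fun a _ => by split_ifs <;> simp [p.2.1 a]

lemma measurable_tr (z : Site d) : Measurable fun p : Row d => tr p z := by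
  refine Finset.measurable_sum _ fun a _ => ?_
  by_cases h : vec a = z
  · simp only [h, if_true]; exact (measurable_pi_apply a).comp measurable_subtype_coe
  · simp only [h, if_false]; exact measurable_const

variable {Q : Env d → Site d → Measure (ℕ → Site d)}

lemma IsQuenchedLaw.prob (hQ : IsQuenchedLaw Q) (ω : Env d) (x : Site d) :
    IsProbabilityMeasure (Q ω x) := (hQ ω x).1

lemma IsQuenchedLaw.apply_cyl (hQ : IsQuenchedLaw Q) (ω : Env d) (x : Site d) (n : ℕ)
    (v : ℕ → Site d) : Q ω x (cyl n v) = ENNReal.ofReal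
      ((if v 0 = x then 1 else 0) * ∏ k ∈ Finset.range n, tr (ω (v k)) (v (k + 1) - v k)) :=
  (hQ ω x).2 n v

lemma IsQuenchedLaw.ae_start (hQ : IsQuenchedLaw Q) (ω : Env d) (x : Site d) :
    ∀ᵐ X ∂Q ω x, X 0 = x := by
  haveI := hQ.prob ω x
  have h := hQ.apply_cyl ω x 0 (fun _ => x)
  have e : cyl 0 (fun _ => x) = {X : ℕ → Site d | X 0 = x} := by ext X; simp [cyl]
  simp [e] at h
  rw [ae_iff]
  exact (prob_compl_eq_zero_iff (s := {X : ℕ → Site d | X 0 = x})
    ((measurableSet_singleton x).preimage (measurable_pi_apply 0))).2 h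

lemma IsQuenchedLaw.map_ptail (hQ : IsQuenchedLaw Q) (ω : Env d) (x : Site d) :
    (Q ω x).map ptail
      = Measure.sum fun a : Step d => ENNReal.ofReal ((ω x).1 a) • Q ω (x + vec a) := by
  haveI := hQ.prob ω x
  haveI : IsProbabilityMeasure ((Q ω x).map ptail) :=
    Measure.isProbabilityMeasure_map measurable_ptail.aemeasurable
  refine ext_of_generate_finite (cyls d) generateFrom_cyls isPiSystem_cyls ?_ ?_
  · rintro s ⟨n, v, rfl⟩
    rw [Measure.map_apply measurable_ptail (measurableSet_cyl n v),
      Measure.sum_apply _ (measurableSet_cyl n v), tsum_fintype]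
    have h1 : Q ω x (ptail ⁻¹' cyl n v) = Q ω x (cyl (n + 1) (pcons x v)) := by
      refine measure_congr (Filter.eventuallyEq_set.2 ?_)
      filter_upwards [hQ.ae_start ω x] with X hX
      constructor
      · intro h k hk
        cases k with
        | zero => exact hX
        | succ k => exact h k (by omega)
      · intro h k hk
        exact h (k + 1) (by omega)
    rw [h1, hQ.apply_cyl]
    simp only [Measure.smul_apply, smul_eq_mul, hQ.apply_cyl]
    have hprod : 0 ≤ ∏ k ∈ Finset.range n, tr (ω (v k)) (v (k + 1) - v k) :=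
      Finset.prod_nonneg fun k _ => tr_nonneg _ _
    have hterm : ∀ a : Step d, ENNReal.ofReal ((ω x).1 a) * ENNReal.ofReal
        ((if v 0 = x + vec a then 1 else 0) * ∏ k ∈ Finset.range n, tr (ω (v k)) (v (k + 1) - v k))
        = ENNReal.ofReal ((if vec a = v 0 - x then (ω x).1 a else 0) *
            ∏ k ∈ Finset.range n, tr (ω (v k)) (v (k + 1) - v k)) := by
      intro a
      rw [← ENNReal.ofReal_mul ((ω x).2.1 a)]
      congr 1
      by_cases h : v 0 = x + vec a
      · simp [h]
      · have : ¬ vec a = v 0 - x := fun h' => h (by rw [h']; abel)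
        simp [h, this]
    simp only [hterm]
    rw [← ENNReal.ofReal_sum_of_nonneg (fun a _ => mul_nonneg
      (by split_ifs <;> simp [(ω x).2.1 a]) hprod), ← Finset.sum_mul, Finset.prod_range_succ']
    simp [pcons, tr, mul_comm]
    try congr!
  · rw [measure_univ, Measure.sum_apply _ MeasurableSet.univ, tsum_fintype]
    have : ∀ a : Step d, Q ω (x + vec a) univ = 1 := fun a => (hQ.prob ω _).measure_univ
    simp only [Measure.smul_apply, smul_eq_mul, this, mul_one]
    rw [← ENNReal.ofReal_sum_of_nonneg (fun a _ => (ω x).2.1 a), (ω x).2.2, ENNReal.ofReal_one]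

/-- First-step decomposition. -/
lemma IsQuenchedLaw.real_step (hQ : IsQuenchedLaw Q) (ω : Env d) (x : Site d)
    {S : Set (ℕ → Site d)} (hS : MeasurableSet S) :
    (Q ω x).real S = ∑ a, (ω x).1 a * (Q ω (x + vec a)).real (pcons x ⁻¹' S) := by
  have hm : MeasurableSet (pcons x ⁻¹' S) := measurable_pcons x hS
  have h1 : Q ω x S = Q ω x (ptail ⁻¹' (pcons x ⁻¹' S)) := by
    refine measure_congr (Filter.eventuallyEq_set.2 ?_)
    filter_upwards [hQ.ae_start ω x] with X hX
    have : pcons x (ptail X) = X := by
      funext k; cases k with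
      | zero => exact hX.symm
      | succ k => rfl
    simp [mem_preimage, this]
  rw [measureReal_def, h1, ← Measure.map_apply measurable_ptail hm, hQ.map_ptail,
    Measure.sum_apply _ hm, tsum_fintype, ENNReal.toReal_sum ?_]
  · refine Finset.sum_congr rfl fun a _ => ?_
    rw [Measure.smul_apply, smul_eq_mul, ENNReal.toReal_mul, ENNReal.toReal_ofReal ((ω x).2.1 a),
      measureReal_def]
  · intro a _
    haveI := hQ.prob ω (x + vec a)
    simp [Measure.smul_apply, ENNReal.mul_ne_top, measure_ne_top]

lemma IsQuenchedLaw.real_nonneg_le_one (hQ : IsQuenchedLaw Q) (ω : Env d) (x : Site d)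
    (S : Set (ℕ → Site d)) : 0 ≤ (Q ω x).real S ∧ (Q ω x).real S ≤ 1 := by
  haveI := hQ.prob ω x
  exact ⟨measureReal_nonneg, measureReal_le_one⟩

lemma IsQuenchedLaw.measurable (hQ : IsQuenchedLaw Q) (x : Site d) :
    Measurable fun ω => Q ω x := by
  haveI := fun ω => hQ.prob ω x
  refine Measurable.measure_of_isPiSystem_of_isProbabilityMeasure generateFrom_cyls isPiSystem_cyls ?_
  rintro s ⟨n, v, rfl⟩
  simp only [hQ.apply_cyl]
  refine ENNReal.measurable_ofReal.comp (measurable_const.mul ?_)
  exact Finset.measurable_prod _ fun k _ => (measurable_tr _).comp (measurable_pi_apply (v k))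

lemma IsQuenchedLaw.measurable_real (hQ : IsQuenchedLaw Q) (x : Site d)
    {S : Set (ℕ → Site d)} (hS : MeasurableSet S) :
    Measurable fun ω => (Q ω x).real S :=
  ((Measure.measurable_coe hS).comp (hQ.measurable x)).ennreal_toReal

/-- Covariance under translations. -/
lemma IsQuenchedLaw.shift (hQ : IsQuenchedLaw Q) (ω : Env d) (z x : Site d) :
    Q (shiftEnv z ω) x = (Q ω (x + z)).map fun X k => X k - z := by
  haveI := hQ.prob (shiftEnv z ω) x
  haveI := hQ.prob ω (x + z)
  have hm : Measurable fun (X : ℕ → Site d) k => X k - z :=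
    measurable_pi_lambda _ fun k => (measurable_of_countable fun y : Site d => y - z).comp
      (measurable_pi_apply k)
  haveI : IsProbabilityMeasure ((Q ω (x + z)).map fun X k => X k - z) :=
    Measure.isProbabilityMeasure_map hm.aemeasurable
  refine ext_of_generate_finite (cyls d) generateFrom_cyls isPiSystem_cyls ?_ (by simp)
  rintro s ⟨n, v, rfl⟩
  rw [Measure.map_apply hm (measurableSet_cyl n v)]
  have : (fun (X : ℕ → Site d) k => X k - z) ⁻¹' cyl n v = cyl n (fun k => v k + z) := by
    ext X; simp [cyl, sub_eq_iff_eq_add]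
  rw [this, hQ.apply_cyl, hQ.apply_cyl]
  simp [shiftEnv]

/-- An event invariant under the time shift which has the same probability from every starting
point has probability zero or one. -/
lemma IsQuenchedLaw.zero_one (hQ : IsQuenchedLaw Q) (ω : Env d) {A : Set (ℕ → Site d)}
    (hA : MeasurableSet A) (hinv : ∀ x, pcons x ⁻¹' A = A) {c : ℝ}
    (hc : ∀ x, (Q ω x).real A = c) : c = 0 ∨ c = 1 := by
  have hind : ∀ n (v : ℕ → Site d) x,
      (Q ω x).real (cyl n v ∩ A) = c * (Q ω x).real (cyl n v) := by
    intro n
    induction n with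
    | zero =>
        intro v x
        haveI := hQ.prob ω x
        by_cases h : v 0 = x
        · have e : cyl 0 v =ᵐ[Q ω x] (univ : Set (ℕ → Site d)) := by
            refine Filter.eventuallyEq_set.2 ?_
            filter_upwards [hQ.ae_start ω x] with X hX
            simp [cyl, hX, h]
          have e2 : (cyl 0 v ∩ A : Set (ℕ → Site d)) =ᵐ[Q ω x] A := by
            refine Filter.eventuallyEq_set.2 ?_
            filter_upwards [hQ.ae_start ω x] with X hX
            simp [cyl, hX, h]
          rw [measureReal_congr e2, measureReal_congr e, probReal_univ, hc, mul_one]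
        · have e : (Q ω x).real (cyl 0 v) = 0 := by simp [measureReal_def, hQ.apply_cyl, h]
          have e2 : (Q ω x).real (cyl 0 v ∩ A) = 0 :=
            le_antisymm ((measureReal_mono inter_subset_left).trans e.le) measureReal_nonneg
          simp [e, e2]
    | succ n ih =>
        intro v x
        haveI := hQ.prob ω x
        by_cases h : v 0 = x
        · have e : pcons x ⁻¹' cyl (n + 1) v = cyl n (ptail v) := by
            ext X
            simp only [cyl, mem_preimage, mem_setOf_eq, ptail]
            constructor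
            · intro hX k hk; exact hX (k + 1) (by omega)
            · intro hX k hk
              cases k with
              | zero => exact h.symm
              | succ k => exact hX k (by omega)
          rw [hQ.real_step ω x ((measurableSet_cyl _ v).inter hA),
            hQ.real_step ω x (measurableSet_cyl _ v), Finset.mul_sum]
          refine Finset.sum_congr rfl fun a _ => ?_
          rw [preimage_inter, e, hinv, ih]
          ring
        · have e : (Q ω x).real (cyl (n + 1) v) = 0 := by
            simp [measureReal_def, hQ.apply_cyl, h]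
          have e2 : (Q ω x).real (cyl (n + 1) v ∩ A) = 0 :=
            le_antisymm ((measureReal_mono inter_subset_left).trans e.le) measureReal_nonneg
          simp [e, e2]
  haveI := hQ.prob ω 0
  have hc0 : 0 ≤ c := hc 0 ▸ (hQ.real_nonneg_le_one ω 0 A).1
  have heq : (Q ω 0).restrict A = ENNReal.ofReal c • Q ω 0 := by
    refine ext_of_generate_finite (cyls d) generateFrom_cyls isPiSystem_cyls ?_ ?_
    · rintro s ⟨n, v, rfl⟩
      rw [Measure.restrict_apply (measurableSet_cyl n v), Measure.smul_apply, smul_eq_mul,
        ← ofReal_measureReal, hind, ENNReal.ofReal_mul hc0, ofReal_measureReal]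
    · rw [Measure.restrict_apply MeasurableSet.univ, univ_inter, Measure.smul_apply, measure_univ,
        smul_eq_mul, mul_one, ← hc 0, ofReal_measureReal]
  have := congrArg (fun ν : Measure (ℕ → Site d) => (ν A).toReal) heq
  simp only [Measure.restrict_apply hA, inter_self, Measure.smul_apply, smul_eq_mul,
    ENNReal.toReal_mul, ENNReal.toReal_ofReal hc0, ← measureReal_def, hc 0] at this
  rcases eq_or_ne c 0 with h | h
  · exact Or.inl h
  · exact Or.inr ((mul_eq_left₀ h).1 this.symm)

end Vale.Agent.P147
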