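import Vale.Agent.P147.Defs

open Set Filter Topology

namespace Vale.Agent.P147

variable {d : ℕ}

/-- One-step average of a function in the environment `ω`. -/
noncomputable def avg (ω : Env d) (u : Site d → ℝ) (x : Site d) : ℝ :=
  ∑ a, (ω x).1 a * u (x + vec a)

lemma avg_mono (ω : Env d) {u v : Site d → ℝ} {x : Site d} (h : ∀ a, u (x + vec a) ≤ v (x + vec a)) :
    avg ω u x ≤ avg ω v x :=
  Finset.sum_le_sum fun a _ => mul_le_mul_of_nonneg_left (h a) ((ω x).2.1 a)

lemma avg_const (ω : Env d) (c : ℝ) (x : Site d) : avg ω (fun _ => c) x = c := by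
  simp [avg, ← Finset.sum_mul, (ω x).2.2]

lemma avg_nonneg (ω : Env d) {u : Site d → ℝ} (x : Site d) (h : ∀ y, 0 ≤ u y) : 0 ≤ avg ω u x :=
  Finset.sum_nonneg fun a _ => mul_nonneg ((ω x).2.1 a) (h _)

lemma avg_le_one (ω : Env d) {u : Site d → ℝ} (x : Site d) (h : ∀ y, u y ≤ 1) : avg ω u x ≤ 1 :=
  (avg_mono ω (v := fun _ => 1) fun _ => h _).trans_eq (avg_const ω 1 x)

lemma avg_sub (ω : Env d) (u v : Site d → ℝ) (x : Site d) :
    avg ω u x - avg ω v x = avg ω (fun y => u y - v y) x := by
  simp [avg, mul_sub, Finset.sum_sub_distrib]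

/-- Mass of the transverse steps. -/
noncomputable def rmass (i : Fin d) (p : Row d) : ℝ := 1 - p.1 (i, true) - p.1 (i, false)

/-- The transverse steps. -/
def transSteps (i : Fin d) : Finset (Step d) := Finset.univ.filter fun a => a.1 ≠ i

/-- The transverse average. -/
noncomputable def tavg (i : Fin d) (w : Step d → ℝ) (u : Site d → ℝ) (x : Site d) : ℝ :=
  ∑ a ∈ transSteps i, w a * u (x + vec a)

lemma sum_split (i : Fin d) (b : Bool) (f : Step d → ℝ) :
    ∑ a, f a = f (i, b) + f (i, !b) + ∑ a ∈ transSteps i, f a := by
  rw [← Finset.sum_filter_add_sum_filter_not Finset.univ (fun a : Step d => a.1 = i) f]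
  have : (Finset.univ.filter fun a : Step d => a.1 = i) = {(i, b), (i, !b)} := by
    ext ⟨j, c⟩
    cases b <;> cases c <;> simp
  rw [this, Finset.sum_insert (by simp), Finset.sum_singleton]
  rfl

lemma rmass_eq (i : Fin d) (b : Bool) (p : Row d) :
    rmass i p = 1 - p.1 (i, b) - p.1 (i, !b) := by
  cases b <;> simp [rmass] <;> ring

lemma FixedTransverse.rmass_pos {i : Fin d} {w : Step d → ℝ} {p : Row d}
    (h : FixedTransverse i w p) : 0 < rmass i p := by
  have := h.1; unfold rmass; linarith

lemma rmass_le_one (i : Fin d) (p : Row d) : rmass i p ≤ 1 := by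
  have h1 := p.2.1 (i, true); have h2 := p.2.1 (i, false); unfold rmass; linarith

lemma FixedTransverse.weight_nonneg {i : Fin d} {w : Step d → ℝ} {p : Row d}
    (h : FixedTransverse i w p) {a : Step d} (ha : a ∈ transSteps i) : 0 ≤ w a := by
  have h2 := p.2.1 a
  rw [h.2 a (by simpa [transSteps] using ha)] at h2
  exact nonneg_of_mul_nonneg_left h2 h.rmass_pos

lemma FixedTransverse.weight_sum {i : Fin d} {w : Step d → ℝ} {p : Row d}
    (h : FixedTransverse i w p) : ∑ a ∈ transSteps i, w a = 1 := by
  have h2 := p.2.2
  rw [sum_split i true, Finset.sum_congr rfl (fun a ha => h.2 a (by simpa [transSteps] using ha)),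
    ← Finset.sum_mul] at h2
  have h3 := h.rmass_pos
  unfold rmass at h3
  simp only [Bool.not_true] at h2
  exact mul_right_cancel₀ h3.ne' (by rw [one_mul]; linarith)

lemma FixedTransverse.avg_eq {i : Fin d} {w : Step d → ℝ} {ω : Env d} {x : Site d}
    (h : FixedTransverse i w (ω x)) (b : Bool) (u : Site d → ℝ) :
    avg ω u x = (ω x).1 (i, b) * u (x + vec (i, b)) + (ω x).1 (i, !b) * u (x + vec (i, !b))
      + rmass i (ω x) * tavg i w u x := by
  rw [avg, sum_split i b, tavg, Finset.mul_sum]
  congr 1
  refine Finset.sum_congr rfl fun a ha => ?_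
  rw [h.2 a (by simpa [transSteps] using ha), rmass]
  ring

lemma vec_not (i : Fin d) (b : Bool) : vec (i, !b) = -vec (i, b) := by
  cases b <;> simp [vec, ← Pi.single_neg]

/-- The key fact: on a finite set, the discounted value iteration preserves monotonicity along the
random axis, as the transverse rates are deterministic after normalising. -/
lemma exists_mono_solution {i : Fin d} {w : Step d → ℝ} {ω : Env d} (b : Bool)
    (B : Finset (Site d)) (hω : ∀ x, FixedTransverse i w (ω x)) (f : Site d → ℝ)
    (hf0 : ∀ x, 0 ≤ f x) (hf1 : ∀ x, f x ≤ 1)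
    (hup : ∀ x ∈ B, x + vec (i, b) ∉ B → f (x + vec (i, b)) = 1)
    (hdown : ∀ x ∉ B, x + vec (i, b) ∈ B → f x = 0)
    (hout : ∀ x ∉ B, x + vec (i, b) ∉ B → f x ≤ f (x + vec (i, b))) :
    ∃ u : Site d → ℝ, (∀ x, 0 ≤ u x ∧ u x ≤ 1) ∧ (∀ x ∉ B, u x = f x) ∧
      (∀ x ∈ B, avg ω u x = u x) ∧ ∀ x, u x ≤ u (x + vec (i, b)) := by
  classical
  set e := vec (i, b) with he
  set h : ℝ := (1 / 4) * ∏ x ∈ B, rmass i (ω x) with hh
  have hh0 : 0 < h := by
    rw [hh]; exact mul_pos (by norm_num) (Finset.prod_pos fun x _ => (hω x).rmass_pos)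
  have hh1 : h ≤ 1 / 4 := by
    rw [hh]
    exact mul_le_of_le_one_right (by norm_num)
      (Finset.prod_le_one (fun x _ => (hω x).rmass_pos.le) fun x _ => rmass_le_one _ _)
  have hhr : ∀ x ∈ B, h / rmass i (ω x) ≤ 1 / 4 := by
    intro x hx
    rw [div_le_iff₀ (hω x).rmass_pos, hh, ← Finset.mul_prod_erase B _ hx]
    have h2 : ∏ y ∈ B.erase x, rmass i (ω y) ≤ 1 :=
      Finset.prod_le_one (fun y _ => (hω y).rmass_pos.le) fun y _ => rmass_le_one _ _
    nlinarith [(hω x).rmass_pos]
  let step : (Site d → ℝ) → Site d → ℝ := fun u x =>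
    if x ∈ B then u x + h / rmass i (ω x) * (avg ω u x - u x) else f x
  let v : ℕ → Site d → ℝ := fun k => step^[k] fun x => if x ∈ B then 0 else f x
  have vsucc : ∀ k, v (k + 1) = step (v k) := fun k => Function.iterate_succ_apply' _ _ _
  have stepmono : ∀ u u' : Site d → ℝ, (∀ x, u x ≤ u' x) → ∀ x, step u x ≤ step u' x := by
    intro u u' huu x
    simp only [step]
    split_ifs with hx
    · have hc0 : 0 ≤ h / rmass i (ω x) := div_nonneg hh0.le (hω x).rmass_pos.le
      have hc1 := hhr x hx
      have h3 := avg_mono ω (u := u) (v := u') (x := x) fun a => huu _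
      have h4 := huu x
      nlinarith
    · exact le_rfl
  have range : ∀ k x, 0 ≤ v k x ∧ v k x ≤ 1 := by
    intro k
    induction k with
    | zero => intro x; simp only [v, Function.iterate_zero, id_eq]; split_ifs <;> simp [hf0, hf1]
    | succ k ih =>
        intro x
        rw [vsucc]
        simp only [step]
        split_ifs with hx
        · have hc0 : 0 ≤ h / rmass i (ω x) := div_nonneg hh0.le (hω x).rmass_pos.le
          have hc1 := hhr x hx
          have h3 := avg_nonneg ω x fun y => (ih y).1
          have h4 := avg_le_one ω x fun y => (ih y).2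
          have h5 := ih x
          constructor <;> nlinarith [h5.1, h5.2]
        · exact ⟨hf0 x, hf1 x⟩
  have outside : ∀ k, ∀ x ∉ B, v k x = f x := by
    intro k x hx
    cases k with
    | zero => simp [v, hx]
    | succ k => rw [vsucc]; simp [step, hx]
  have incr : ∀ x, Monotone fun k => v k x := by
    have : ∀ k x, v k x ≤ v (k + 1) x := by
      intro k
      induction k with
      | zero =>
          intro x
          by_cases hx : x ∈ B
          · have : v 0 x = 0 := by simp [v, hx]
            rw [this]; exact (range _ x).1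
          · rw [outside _ x hx, outside _ x hx]
      | succ k ih =>
          intro x
          rw [vsucc (k + 1)]
          conv_lhs => rw [vsucc k]
          exact stepmono _ _ ih x
    exact fun x => monotone_nat_of_le_succ fun k => this k x
  have mono : ∀ k x, v k x ≤ v k (x + e) := by
    intro k
    induction k with
    | zero =>
        intro x
        by_cases hx : x ∈ B
        · have : v 0 x = 0 := by simp [v, hx]
          rw [this]; exact (range _ _).1
        · by_cases hx' : x + e ∈ B
          · rw [outside 0 x hx, hdown x hx hx']; exact (range _ _).1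
          · rw [outside 0 x hx, outside 0 _ hx']; exact hout x hx hx'
    | succ k ih =>
        intro x
        by_cases hx : x ∈ B
        swap
        · by_cases hx' : x + e ∈ B
          · rw [outside _ x hx, hdown x hx hx']; exact (range _ _).1
          · rw [outside _ x hx, outside _ _ hx']; exact hout x hx hx'
        by_cases hx' : x + e ∈ B
        swap
        · rw [outside _ _ hx', hup x hx hx']; exact (range _ _).2
        rw [vsucc]
        simp only [step, if_pos hx, if_pos hx']
        set u := v k
        rw [(hω x).avg_eq b, (hω (x + e)).avg_eq b]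
        have e1 : x + e + vec (i, !b) = x := by rw [vec_not, ← he]; abel
        rw [e1, ← he]
        have hT : tavg i w u x ≤ tavg i w u (x + e) := by
          refine Finset.sum_le_sum fun a ha => mul_le_mul_of_nonneg_left ?_ ((hω x).weight_nonneg ha)
          have : x + e + vec a = x + vec a + e := by abel
          rw [this]; exact ih _
        have hr : ∀ y : Site d, rmass i (ω y) = 1 - (ω y).1 (i, b) - (ω y).1 (i, !b) :=
          fun y => rmass_eq i b _
        have hrp := (hω x).rmass_pos
        have hrp' := (hω (x + e)).rmass_pos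
        set r := rmass i (ω x) with r_def
        set r' := rmass i (ω (x + e)) with r'_def
        set c := h / r with c_def
        set c' := h / r' with c'_def
        have hcr : c * r = h := by rw [c_def]; field_simp
        have hcr' : c' * r' = h := by rw [c'_def]; field_simp
        have hc : c ≤ 1 / 4 := hhr x hx
        have hc' : c' ≤ 1 / 4 := hhr _ hx'
        have hc0 : 0 ≤ c := div_nonneg hh0.le hrp.le
        have hc0' : 0 ≤ c' := div_nonneg hh0.le hrp'.le
        have q1 := ih x
        have q2 := ih (x + e)
        have q3 : u (x + vec (i, !b)) ≤ u x := by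
          have := ih (x + vec (i, !b))
          rwa [show x + vec (i, !b) + e = x by rw [vec_not, ← he]; abel] at this
        have p0 := (ω x).2.1 (i, b)
        have p1 := (ω x).2.1 (i, !b)
        have p0' := (ω (x + e)).2.1 (i, b)
        have p1' := (ω (x + e)).2.1 (i, !b)
        have E := hr x
        have E' := hr (x + e)
        rw [← r_def] at E
        rw [← r'_def] at E'
        have A1 : 0 ≤ c' * (ω (x + e)).1 (i, b) * (u (x + e + e) - u (x + e)) :=
          mul_nonneg (mul_nonneg hc0' p0') (by linarith)
        have A2 : 0 ≤ c * (ω x).1 (i, !b) * (u x - u (x + vec (i, !b))) :=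
          mul_nonneg (mul_nonneg hc0 p1) (by linarith)
        have A3 : 0 ≤ h * (tavg i w u (x + e) - tavg i w u x) :=
          mul_nonneg hh0.le (by linarith)
        have A4 : 0 ≤ (1 - h - c' * (ω (x + e)).1 (i, !b) - c * (ω x).1 (i, b)) *
            (u (x + e) - u x) := by
          refine mul_nonneg ?_ (by linarith)
          have : c' * (ω (x + e)).1 (i, !b) ≤ c' := mul_le_of_le_one_right hc0' (by linarith)
          have : c * (ω x).1 (i, b) ≤ c := mul_le_of_le_one_right hc0 (by linarith)
          linarith
        have key : (u (x + e) + c' * ((ω (x + e)).1 (i, b) * u (x + e + e)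
              + (ω (x + e)).1 (i, !b) * u x + r' * tavg i w u (x + e) - u (x + e)))
            - (u x + c * ((ω x).1 (i, b) * u (x + e) + (ω x).1 (i, !b) * u (x + vec (i, !b))
              + r * tavg i w u x - u x))
            = c' * (ω (x + e)).1 (i, b) * (u (x + e + e) - u (x + e))
              + c * (ω x).1 (i, !b) * (u x - u (x + vec (i, !b)))
              + h * (tavg i w u (x + e) - tavg i w u x)
              + (1 - h - c' * (ω (x + e)).1 (i, !b) - c * (ω x).1 (i, b)) * (u (x + e) - u x) := by
          linear_combination (tavg i w u (x + e) - u (x + e)) * hcr' + c' * u (x + e) * E'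
            - (tavg i w u x - u x) * hcr - c * u x * E
        linarith
  let V : Site d → ℝ := fun x => ⨆ k, v k x
  have bdd : ∀ x, BddAbove (Set.range fun k => v k x) := fun x =>
    ⟨1, by rintro _ ⟨k, rfl⟩; exact (range k x).2⟩
  have tend : ∀ x, Tendsto (fun k => v k x) atTop (𝓝 (V x)) := fun x =>
    tendsto_atTop_ciSup (incr x) (bdd x)
  refine ⟨V, fun x => ⟨ge_of_tendsto' (tend x) fun k => (range k x).1,
      le_of_tendsto' (tend x) fun k => (range k x).2⟩, fun x hx => ?_, fun x hx => ?_,
    fun x => le_of_tendsto_of_tendsto' (tend x) (tend _) fun k => mono k x⟩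
  · refine tendsto_nhds_unique (tend x) ?_
    simp only [outside _ x hx]
    exact tendsto_const_nhds
  · have t1 : Tendsto (fun k => avg ω (v k) x) atTop (𝓝 (avg ω V x)) :=
      tendsto_finsetSum _ fun a _ => (tend _).const_mul _
    have t2 : Tendsto (fun k => v (k + 1) x) atTop
        (𝓝 (V x + h / rmass i (ω x) * (avg ω V x - V x))) := by
      simp only [vsucc, step, if_pos hx]
      exact (tend x).add ((t1.sub (tend x)).const_mul _)
    have := tendsto_nhds_unique ((tend x).comp (tendsto_add_atTop_nat 1)) t2
    have hne : h / rmass i (ω x) ≠ 0 := (div_pos hh0 (hω x).rmass_pos).ne'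
    have : avg ω V x - V x = 0 := by
      rcases mul_eq_zero.1 (show h / rmass i (ω x) * (avg ω V x - V x) = 0 by linarith) with h' | h'
      · exact absurd h' hne
      · exact h'
    linarith

end Vale.Agent.P147
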